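import Claimed.Agent.R285.Reg.Lat
import Claimed.Agent.R285.Geo.Grid
import Claimed.Agent.R285.Ker.Met

/-!
# ROW 285, package PK-SCAL, file 8: lattice distance from block-index distance     (helper218)

`dist_of_idist`: sites in blocks at index distance `k` are at lattice distance `> (k - 1) m`.
`dist_far`: collars of `col` steps, `2 col < m`, around blocks at index distance `> r ≥ ρ + 2` are at lattice distance `> ρ m`.
-/

set_option autoImplicit false

namespace Claimed.Agent.R285.Scal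

open scoped BigOperators
open Claimed.Agent.R285.RG Claimed.Agent.R285

variable {G : Geom}

theorem d1_of_idist1 (g : Grid G) (hg : g.Ok) (i j : Fin G.M) :
    g.idist1 (g.blk1 i) (g.blk1 j) * g.m < Reg.regD1 G i j + g.m := by
  wlog hij : i ≤ j generalizing i j
  · have := this j i (le_of_not_ge hij)
    rwa [Geo.geo_idist1_comm g (g.blk1 j), Reg.reg_d1_comm G j] at this
  have hm := hg.pos
  have hlo : ∀ c, g.m ≤ (Finset.univ.filter fun x => g.blk1 x = c).card := fun c => (hg.size c).1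
  have h1 := Geo.geo_arc_in_lo g.blk1 hg.mono hlo hij
  have h2 := Geo.geo_arc_out_lo g.blk1 hg.mono hlo hij
  have hij' : (i : ℕ) ≤ j := hij
  have hfij : (g.blk1 i : ℕ) ≤ g.blk1 j := hg.mono hij
  have hj := j.2
  have hfj := (g.blk1 j).2
  have ar : ∀ d d' : ℕ, (d = 0 → d' = 0) → (d' - 1) * g.m ≤ d - 1 → d' * g.m < d + g.m := by
    intro d d' h0 h
    rcases Nat.eq_zero_or_pos d' with rfl | hd'
    · omega
    · obtain ⟨e, rfl⟩ : ∃ e, d' = e + 1 := ⟨d' - 1, by omega⟩
      have hd : 1 ≤ d := by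
        by_contra hc
        have := h0 (by omega)
        omega
      rw [Nat.add_sub_cancel] at h
      have h6 : (e + 1) * g.m = e * g.m + g.m := by ring
      omega
  have A := ar ((j : ℕ) - i) ((g.blk1 j : ℕ) - g.blk1 i) (fun h0 => by
    have : i = j := Fin.ext (by omega)
    rw [this]; omega) h1
  have B := ar (G.M - ((j : ℕ) - i)) (g.n - ((g.blk1 j : ℕ) - g.blk1 i)) (fun h0 => by omega) h2
  have e1 : ((i : ℤ) - j).natAbs = (j : ℕ) - i := by omega
  have e2 : ((g.blk1 i : ℤ) - g.blk1 j).natAbs = (g.blk1 j : ℕ) - g.blk1 i := by omega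
  rcases Geo.geo_bc_cases G with h | h
  · rw [Geo.geo_idist1_per _ h, Reg.regl_d1_per G h, e1, e2]
    have m1 : min ((g.blk1 j : ℕ) - g.blk1 i) (g.n - ((g.blk1 j : ℕ) - g.blk1 i)) * g.m ≤
        ((g.blk1 j : ℕ) - g.blk1 i) * g.m := Nat.mul_le_mul_right _ (min_le_left _ _)
    have m2 : min ((g.blk1 j : ℕ) - g.blk1 i) (g.n - ((g.blk1 j : ℕ) - g.blk1 i)) * g.m ≤
        (g.n - ((g.blk1 j : ℕ) - g.blk1 i)) * g.m := Nat.mul_le_mul_right _ (min_le_right _ _)
    rcases le_total ((j : ℕ) - i) (G.M - ((j : ℕ) - i)) with hmn | hmn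
    · rw [min_eq_left hmn]; exact lt_of_le_of_lt m1 A
    · rw [min_eq_right hmn]; exact lt_of_le_of_lt m2 B
  · rw [Geo.geo_idist1_free _ h, Reg.regl_d1_free G h, e1, e2]
    exact A

/-- sites in blocks at index distance `k` are at lattice distance `> (k - 1) m` -/
theorem dist_of_idist (g : Grid G) (hg : g.Ok) (v w : G.V) : g.idist (g.blk v) (g.blk w) * g.m < G.dist v w + g.m := by
  unfold Grid.idist Grid.blk
  rcases le_total (g.idist1 (g.blk1 v.1) (g.blk1 w.1)) (g.idist1 (g.blk1 v.2) (g.blk1 w.2)) with h | h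
  · rw [max_eq_right h]
    exact lt_of_lt_of_le (d1_of_idist1 g hg v.2 w.2) (Nat.add_le_add_right (Reg.reg_d1_le_dist_snd G v w) _)
  · rw [max_eq_left h]
    exact lt_of_lt_of_le (d1_of_idist1 g hg v.1 w.1) (Nat.add_le_add_right (Reg.reg_d1_le_dist_fst G v w) _)

/-- range plus collars fit in the temporary radius -/
theorem dist_far (g : Grid G) (hg : g.Ok) {col ρ r : ℕ} (hρ : ρ + 1 < r) (hcol : 2 * col < g.m) {v0 w0 v w : G.V}
    (h : r < g.idist (g.blk v0) (g.blk w0)) (hv : G.dist v0 v ≤ col) (hw : G.dist w0 w ≤ col) : ρ * g.m < G.dist v w := by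
  have h1 := dist_of_idist g hg v0 w0
  have h2 : G.dist v0 w0 ≤ G.dist v0 v + (G.dist v w + G.dist w w0) :=
    (Ker.ker_dist_triangle G v0 v w0).trans (Nat.add_le_add_left (Ker.ker_dist_triangle G v w w0) _)
  rw [Ker.ker_dist_comm G w w0] at h2
  have h3 : (ρ + 3) * g.m ≤ g.idist (g.blk v0) (g.blk w0) * g.m := Nat.mul_le_mul_right _ (by omega)
  have h4 : (ρ + 3) * g.m = ρ * g.m + 3 * g.m := by ring
  omega

end Claimed.Agent.R285.Scal
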