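import Claimed.Agent.R285.Base.RG

/-!
# ROW 285, package PK-SCAL, file 7: independence of Gaussian blocks from vanishing covariance     (helper218)

`gauss_indep_mul`: if `Γ v w = 0` for `v ∈ N₁`, `w ∈ N₂`, then functions of `ζ|N₁` and of `ζ|N₂` are uncorrelated under `gauss G Γ`.
No integrability is needed.  From Mathlib's `HasGaussianLaw.indepFun_of_covariance_eval`.
-/

set_option autoImplicit false

namespace Claimed.Agent.R285.Scal

open scoped BigOperators ENNReal NNReal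
open MeasureTheory ProbabilityTheory
open Claimed.Agent.R285.RG Claimed.Agent.R285

noncomputable section

variable {G : Geom}

open Classical in
/-- extension by zero of a field on `N` -/
def extZ (N : Set G.V) (η : N → ℝ) : G.V → ℝ := fun v => if h : v ∈ N then η ⟨v, h⟩ else 0

theorem extZ_measurable (N : Set G.V) : Measurable (extZ N) := by
  classical
  refine measurable_pi_iff.2 fun v => ?_
  unfold extZ
  by_cases h : v ∈ N
  · simp only [dif_pos h]
    exact measurable_pi_apply _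
  · simp only [dif_neg h]
    exact measurable_const

theorem extZ_restrict (N : Set G.V) (ζ : G.V → ℝ) (v : G.V) (hv : v ∈ N) : extZ N (fun i : N => ζ i) v = ζ v := by
  unfold extZ
  rw [dif_pos hv]

/-- the two restrictions are independent -/
theorem indep_restrict (Γ : Matrix G.V G.V ℝ) (hΓ : Γ.PosSemidef) (N₁ N₂ : Set G.V) (h0 : ∀ v ∈ N₁, ∀ w ∈ N₂, Γ v w = 0) :
    IndepFun (fun (x : EuclideanSpace ℝ G.V) (i : N₁) => x i) (fun (x : EuclideanSpace ℝ G.V) (j : N₂) => x j)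
      (multivariateGaussian 0 Γ) := by
  refine HasGaussianLaw.indepFun_of_covariance_eval (X := fun (i : N₁) (x : EuclideanSpace ℝ G.V) => x i)
    (Y := fun (j : N₂) (x : EuclideanSpace ℝ G.V) => x j) ?_ fun i j => ?_
  · let : Fintype N₁ := Fintype.ofFinite _
    let : Fintype N₂ := Fintype.ofFinite _
    let L : EuclideanSpace ℝ G.V →L[ℝ] (N₁ → ℝ) × (N₂ → ℝ) :=
      ContinuousLinearMap.prod (ContinuousLinearMap.pi fun i : N₁ => EuclideanSpace.proj (i : G.V))
        (ContinuousLinearMap.pi fun j : N₂ => EuclideanSpace.proj (j : G.V))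
    exact HasGaussianLaw.map_fun (F := (N₁ → ℝ) × (N₂ → ℝ))
      (IsGaussian.hasGaussianLaw_id (μ := multivariateGaussian (0 : EuclideanSpace ℝ G.V) Γ)) L
  · rw [covariance_eval_multivariateGaussian hΓ]
    exact h0 _ i.2 _ j.2

theorem integral_gauss (Γ : Matrix G.V G.V ℝ) (f : (G.V → ℝ) → ℂ) :
    ∫ ζ, f ζ ∂(gauss G Γ) = ∫ x : EuclideanSpace ℝ G.V, f (fun v => x v) ∂(multivariateGaussian 0 Γ) := by
  unfold gauss
  rw [integral_map_equiv]
  rfl

/-- **independence from vanishing covariance** -/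
theorem gauss_indep_mul (Γ : Matrix G.V G.V ℝ) (hΓ : Γ.PosSemidef) (N₁ N₂ : Set G.V) (h0 : ∀ v ∈ N₁, ∀ w ∈ N₂, Γ v w = 0)
    (f₁ f₂ : (G.V → ℝ) → ℂ) (hm₁ : Measurable f₁) (hm₂ : Measurable f₂)
    (hl₁ : ∀ ζ ζ' : G.V → ℝ, (∀ v ∈ N₁, ζ v = ζ' v) → f₁ ζ = f₁ ζ')
    (hl₂ : ∀ ζ ζ' : G.V → ℝ, (∀ v ∈ N₂, ζ v = ζ' v) → f₂ ζ = f₂ ζ') :
    ∫ ζ, f₁ ζ * f₂ ζ ∂(gauss G Γ) = (∫ ζ, f₁ ζ ∂(gauss G Γ)) * ∫ ζ, f₂ ζ ∂(gauss G Γ) := by
  rw [integral_gauss, integral_gauss, integral_gauss]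
  have hind := indep_restrict Γ hΓ N₁ N₂ h0
  have e₁ : ∀ x : EuclideanSpace ℝ G.V, f₁ (fun v => x v) = (fun η => f₁ (extZ N₁ η)) (fun i : N₁ => x i) := fun x =>
    hl₁ _ _ fun v hv => (extZ_restrict N₁ (fun v => x v) v hv).symm
  have e₂ : ∀ x : EuclideanSpace ℝ G.V, f₂ (fun v => x v) = (fun η => f₂ (extZ N₂ η)) (fun j : N₂ => x j) := fun x =>
    hl₂ _ _ fun v hv => (extZ_restrict N₂ (fun v => x v) v hv).symm
  simp only [e₁, e₂]
  exact hind.integral_fun_comp_mul_comp (f := fun η => f₁ (extZ N₁ η)) (g := fun η => f₂ (extZ N₂ η))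
    (by fun_prop) (by fun_prop)
    (hm₁.comp (extZ_measurable N₁)).aestronglyMeasurable (hm₂.comp (extZ_measurable N₂)).aestronglyMeasurable

end

end Claimed.Agent.R285.Scal
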