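import Claimed.Agent.R285.Scal.Ok
import Claimed.Agent.R285.Scal.Indep
import Claimed.Agent.R285.Scal.Dist
import Claimed.Agent.R285.Alg.Step1
import Claimed.Agent.R285.Alg.Step2
import Claimed.Agent.R285.Alg.Step3

/-!
# ROW 285, package PK-SCAL, file 9: factorisation from finite range, and the EXACT MAP ([B] (rg:exact-map), [F] (eq:exact-local-map))     (helper218)

All identities hold at the points `z` of the strip of the whole grid (in particular at real fields if `0 < h₀`); outside the strips activities are junk and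
`B4.conv_factor` (identity of functions on all of `ℂ^V`) is FALSE.  New hypotheses w.r.t. `B4` v5: `max 5 Vf.sep ≤ R`, `0 < p.A`, `0 < p.h0` (real fields), and `R ≤ 2^ℓ` for the factorisation.
-/

set_option autoImplicit false

namespace Claimed.Agent.R285.Scal

open scoped BigOperators ENNReal NNReal
open MeasureTheory ProbabilityTheory
open Claimed.Agent.R285.RG Claimed.Agent.R285

noncomputable section

variable {G : Geom} {D0 ℓ : ℕ} (P : Pair G D0 ℓ) (Γ : Matrix G.V G.V ℝ)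

theorem conv_one (z : G.V → ℂ) : conv Γ (1 : Fn G) z = 1 := by
  rw [conv_apply]
  simp

/-- fine blocks at index distance `≤ R ≤ L` lie in coarse blocks at index distance `≤ 2` -/
theorem up_idist_le {R r : ℕ} (hL : R ≤ 2 ^ ℓ) (hr : 2 ≤ r) (a b : P.g.I) (h : P.g.idist a b ≤ R) :
    P.g'.idist (P.N.up a) (P.N.up b) ≤ r := by
  have h1 := Geo.geo_up_dist P a b
  have h2 : 2 ^ ℓ * P.g'.idist (P.N.up a) (P.N.up b) < 2 ^ ℓ * 3 := by omega
  have h3 := Nat.lt_of_mul_lt_mul_left h2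
  omega

variable {P Γ}

/-- **independence from finite range**: functions which live over `r`-separated coarse sets are uncorrelated -/
theorem conv_mul_of_sep {p : Par} {ρ col r : ℕ} (hρ : ρ + 1 < r) (hcol : 2 * col < P.g'.m) (hΓ : Γ.PosSemidef)
    (hr : FinRange Γ (ρ * P.g'.m)) {V1 V2 : Finset P.g.I} (hsep : P.g'.Sep r (P.N.cl V1) (P.N.cl V2)) {F1 F2 : Fn G}
    (h1 : LocalFn p col P.g V1 F1) (h2 : LocalFn p col P.g V2 F2) {z : G.V → ℂ} (hz1 : z ∈ strip p.h0 P.g V1)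
    (hz2 : z ∈ strip p.h0 P.g V2) : conv Γ (F1 * F2) z = conv Γ F1 z * conv Γ F2 z := by
  simp only [conv_apply, Pi.mul_apply]
  refine gauss_indep_mul Γ hΓ {v | ∃ w ∈ P.g.sites V1, G.dist w v ≤ col} {v | ∃ w ∈ P.g.sites V2, G.dist w v ≤ col} ?_
    (fun ζ => F1 (z + toC ζ)) (fun ζ => F2 (z + toC ζ)) (Hol.continuous_comp_shift h1.hol hz1).measurable
    (Hol.continuous_comp_shift h2.hol hz2).measurable ?_ ?_
  · rintro v ⟨v0, hv0, hv⟩ w ⟨w0, hw0, hw⟩
    refine hr v w (dist_far P.g' P.ok' hρ hcol (hsep _ ?_ _ ?_) hv hw)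
    · rw [Hol.blk_up P v0]
      exact Finset.mem_image_of_mem _ (by simpa [Grid.sites] using hv0)
    · rw [Hol.blk_up P w0]
      exact Finset.mem_image_of_mem _ (by simpa [Grid.sites] using hw0)
  · intro ζ ζ' h
    refine h1.loc _ (Hol.strip_add_toC hz1 ζ) _ (Hol.strip_add_toC hz1 ζ') fun v hv => ?_
    simp only [Pi.add_apply, toC, h v hv]
  · intro ζ ζ' h
    refine h2.loc _ (Hol.strip_add_toC hz2 ζ) _ (Hol.strip_add_toC hz2 ζ') fun v hv => ?_
    simp only [Pi.add_apply, toC, h v hv]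

theorem above_subset (V : Finset P.g.I) (A : Finset P.g'.I) : Alg.above P V A ⊆ V := Finset.filter_subset _ _

theorem cl_above_subset (V : Finset P.g.I) (A : Finset P.g'.I) : P.N.cl (Alg.above P V A) ⊆ A := by
  intro y hy
  obtain ⟨a, ha, rfl⟩ := Finset.mem_image.1 hy
  exact (Finset.mem_filter.1 ha).2

theorem above_union (V : Finset P.g.I) (A B : Finset P.g'.I) :
    Alg.above P V (A ∪ B) = Alg.above P V A ∪ Alg.above P V B := by
  ext a
  simp only [Alg.above, Finset.mem_filter, Finset.mem_union]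
  tauto

theorem above_empty (V : Finset P.g.I) : Alg.above P V ∅ = ∅ := by
  simp [Alg.above]

/-- **second hypothesis of `exact_step1`**, at the points of the strip -/
theorem conv_factor_strip {p : Par} {ρ col r R : ℕ} (hρ : ρ + 1 < r) (hcol : 2 * col < P.g'.m) (hL : R ≤ 2 ^ ℓ)
    (hΓ : Γ.PosSemidef) (hr : FinRange Γ (ρ * P.g'.m)) {K : Act P.g} (hK : ∀ X, LocalFn p col P.g X (K X))
    (V : Finset P.g.I) {z : G.V → ℂ} (hz : z ∈ strip p.h0 P.g V) :
    conv Γ (∏ X ∈ P.g.comps R V, K X) z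
      = ∏ Y ∈ P.g'.comps r (P.N.cl V), conv Γ (∏ X ∈ P.g.comps R (Alg.above P V Y), K X) z := by
  have key := Alg.mult_eq_prod (g := P.g') (R := r)
    (fun A : Finset P.g'.I => conv Γ (∏ X ∈ P.g.comps R (Alg.above P V A), K X) z) ?_ ?_ (P.N.cl V)
  · simpa only [Alg.above_cl_self (P := P) (V := V) rfl] using key
  · simp only [above_empty, Alg.comps_empty, Finset.prod_empty]
    exact conv_one Γ z
  · intro A B hAB
    have hsepR : P.g.Sep R (Alg.above P V A) (Alg.above P V B) := by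
      intro a ha b hb
      by_contra hcon
      have h1 := up_idist_le P hL (by omega : 2 ≤ r) a b (not_lt.1 hcon)
      exact absurd h1 (not_le.2 (hAB _ (Finset.mem_filter.1 ha).2 _ (Finset.mem_filter.1 hb).2))
    simp only [above_union]
    rw [Alg.prod_comps_union _ hsepR]
    exact conv_mul_of_sep hρ hcol hΓ hr (Alg.sep_mono hAB (cl_above_subset V A) (cl_above_subset V B))
      (localFn_prod_comps hK _) (localFn_prod_comps hK _) (strip_anti _ P.g (above_subset V A) hz)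
      (strip_anti _ P.g (above_subset V B) hz)

variable (P Γ) (Vf : Extra P.g) (Vc : Extra P.g')

/-- **P4.8, step 1 in the scalar representation**, at the points of the strip of the whole grid -/
theorem step1_strip (p : Par) (ρ col r R n0 : ℕ) (cst : ℝ≥0) (hρ : ρ + 1 < r) (hcol : 2 * col < P.g'.m) (hL : R ≤ 2 ^ ℓ)
    (hR : max 5 Vf.sep ≤ R) (hΓ : Γ.PosSemidef) (hr : FinRange Γ (ρ * P.g'.m)) (K : Act P.g)
    (hK : ∀ X, LocalFn p col P.g X (K X)) (hfin : ∀ X, fnSize p P.g Vf X (K X) ≠ ⊤)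
    (hreg : RegStable R n0 cst p.δ p.κ P Vf Vc Γ) (z : G.V → ℂ) (hz : z ∈ strip p.h0 P.g Finset.univ) :
    conv Γ (ZA P.g R K) z = ZA P.g' r (Ktil P r R (conv Γ) K) z := by
  classical
  set e : Finset P.g.I → ℂ := fun V => conv Γ (∏ X ∈ P.g.comps R V, K X) z with he
  have hfac : ∀ V : Finset P.g.I, e V = ∏ Y ∈ P.g'.comps r (P.N.cl V), e (Alg.above P V Y) := fun V =>
    conv_factor_strip hρ hcol hL hΓ hr hK V (strip_anti _ P.g (Finset.subset_univ V) hz)
  have h1 : ZA P.g' r (Ktil P r R (conv Γ) K) z = ZA P.g' r (fun Y => Ktil P r R (conv Γ) K Y z) := by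
    simp only [ZA, Finset.sum_apply, Finset.prod_apply]
  rw [h1, Alg.ZA_of_mult (fun Y => Ktil P r R (conv Γ) K Y z) (Alg.W1 P e) (Alg.W1_empty r e hfac) (Alg.W1_mul r e hfac) ?_,
    conv_ZA_strip P.ok hR Γ (fun X => (hK X).hol) hfin (fun W φ => lintegral_Wt_ne_top ENNReal.coe_ne_top hreg W φ) hz]
  · unfold Alg.W1
    exact (Finset.sum_fiberwise Finset.univ (fun V : Finset P.g.I => P.N.cl V) e).symm
  · intro Y hY
    unfold Ktil Alg.W1
    rw [if_pos hY, Finset.sum_apply]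

/-- **Proposition 4.8, (rg:exact-map)** = [F] (eq:exact-local-map), scalar representation, at COMPLEX backgrounds inside the strip of the whole grid -/
theorem exact_map_strip (p : Par) (hA : 0 < p.A) (ρ col r R n0 : ℕ) (cst : ℝ≥0) (hρ : ρ + 1 < r) (hrR : r + 2 < R)
    (hcol : 2 * col < P.g'.m) (hL : R ≤ 2 ^ ℓ) (hR : max 5 Vf.sep ≤ R) (hΓ : Γ.PosSemidef) (hr : FinRange Γ (ρ * P.g'.m))
    (K : Act P.g) (hK : Act.Ok p col R K) (hfin : actNorm p P.g Vf K ≠ ⊤) (hreg : RegStable R n0 cst p.δ p.κ P Vf Vc Γ)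
    (d : Desig P.g' (Fn G)) (hd : d.Ok p col r) (z : G.V → ℂ) (hz : z ∈ strip p.h0 P.g' Finset.univ) :
    conv Γ (ZA P.g R K) z = (∏ b : P.g'.I, (1 + d.a b)) * ZA P.g' R (Kprime P r R (conv Γ) K d) z := by
  rw [step1_strip P Γ Vf Vc p ρ col r R n0 cst hρ hcol hL hR hΓ hr K hK.fn (fnSize_ne_top p hA P.g Vf K hfin) hreg z
      (strip_coarse _ P (Finset.subset_univ _) hz),
    Alg.exact_step2 r R P.g' hrR (Ktil P r R (conv Γ) K) d hd.small,
    Alg.exact_step3 P.g' R (Hrel r R P.g' (Ktil P r R (conv Γ) K) d) d hd.ne]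
  rfl

/-- the exact map at real fields = `B4.exact_map` (with `0 < p.A`, `0 < p.h0`, `max 5 Vf.sep ≤ R`) -/
theorem exact_map (p : Par) (hA : 0 < p.A) (hh : 0 < p.h0) (ρ col r R n0 : ℕ) (cst : ℝ≥0) (hρ : ρ + 1 < r) (hrR : r + 2 < R)
    (hcol : 2 * col < P.g'.m) (hL : R ≤ 2 ^ ℓ) (hR : max 5 Vf.sep ≤ R) (hΓ : Γ.PosSemidef) (hr : FinRange Γ (ρ * P.g'.m))
    (K : Act P.g) (hK : Act.Ok p col R K) (hfin : actNorm p P.g Vf K ≠ ⊤) (hreg : RegStable R n0 cst p.δ p.κ P Vf Vc Γ)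
    (d : Desig P.g' (Fn G)) (hd : d.Ok p col r) (φ : G.V → ℝ) :
    conv Γ (ZA P.g R K) (toC φ) = (∏ b : P.g'.I, (1 + d.a b)) * ZA P.g' R (Kprime P r R (conv Γ) K d) (toC φ) :=
  exact_map_strip P Γ Vf Vc p hA ρ col r R n0 cst hρ hrR hcol hL hR hΓ hr K hK hfin hreg d hd _ (toC_mem_strip hh _ _ φ)

end

end Claimed.Agent.R285.Scal
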