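import Claimed.Agent.R285.Scal.Lip

/-!
# ROW 285, package PK-SCAL, file 11: [B] P4.8 / [F] P4.2 (rg:nonlinear-map) in the scalar representation: quadratic bound and Lipschitz form     (helper218)

`nonlinear_map_of_abs` = `B4.nonlinear_map` (with the new hypothesis `Vf.sep ≤ sepV`), PROVED from the statement `NlAbs` of `B4.nonlinear_map_abs` (package PK-EST), which is taken at `Cd + 1`.
Wiring in `B4.lean`:  `nonlinear_map … := Scal.nonlinear_map_of_abs … (nonlinear_map_abs r R (max 5 sepV) hr hs hrR cst (Cd + 1))`.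
-/

set_option autoImplicit false

namespace Claimed.Agent.R285.Scal

open scoped BigOperators ENNReal NNReal
open MeasureTheory ProbabilityTheory
open Claimed.Agent.R285.RG Claimed.Agent.R285

noncomputable section

variable {G : Geom}

/-- the conclusion of `B4.nonlinear_map_abs` -/
def NlAbs (r R sep : ℕ) (cst Cd : ℝ≥0) : Prop :=
  ∃ (ℓ0 D1 : ℕ), ∀ ℓ ≥ ℓ0, ∃ A0 : ℝ≥0,
    ∀ A ≥ A0, ∃ (C ε0 : ℝ≥0), 0 < ε0 ∧ ∀ D0 ≥ D1, ∀ (G : Geom) (P : Pair G D0 ℓ) (𝔸 : Type) [CommRing 𝔸] [Algebra ℂ 𝔸]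
      (E : 𝔸 → 𝔸) (S : SizeSys P R E) (K : Finset P.g.I → 𝔸) (d : Desig P.g' 𝔸), S.sep ≤ sep → S.cst ≤ cst →
      d.Small r P.g' →
      ∀ ε : ℝ≥0, ε ≤ ε0 → S.nf A K ≤ ε → S.nd d ≤ Cd * ε →
        S.nc A (Kprime P r R E K d - Klin P R E K d) ≤ C * ε ^ 2

section one

variable {D0 ℓ : ℕ} {P : Pair G D0 ℓ} {Γ : Matrix G.V G.V ℝ} {Vf : Extra P.g} {Vc : Extra P.g'}

/-- **the Lipschitz form of the quadratic bound** for one retained pair -/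
theorem lipschitz_of_quad {p : Par} (hA : 0 < p.A) {col r R n0 : ℕ} {cst : ℝ≥0} (hR : max 5 Vf.sep ≤ R)
    (hreg : RegStable R n0 cst p.δ p.κ P Vf Vc Γ) {Cd C ε0 : ℝ≥0} (hq : QuadAt P Γ Vf Vc p r R (Cd + 1) C ε0)
    {ε : ℝ≥0} (hε : 2 * ε ≤ ε0) (hε1 : (Cd + 1) * ε < 1) {K K₂ : Act P.g} {d d₂ : Desig P.g' (Fn G)}
    (hK : Act.Ok p col R K) (hK₂ : Act.Ok p col R K₂) (hd : d.Ok p col r) (hd₂ : d₂.Ok p col r)
    (hKε : actNorm p P.g Vf K ≤ ε) (hK₂ε : actNorm p P.g Vf K₂ ≤ ε) (hdε : d.size p Vc ≤ Cd * ε) (hd₂ε : d₂.size p Vc ≤ Cd * ε) :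
    actNorm p P.g' Vc (Nl P Γ r R K d - Nl P Γ r R K₂ d₂)
      ≤ ((8 * C : ℝ≥0) : ℝ≥0∞) * ε * (actNorm p P.g Vf (K - K₂) + Desig.size p Vc ⟨d.F - d₂.F, d.a - d₂.a⟩) := by
  set D : ℝ≥0∞ := actNorm p P.g Vf (K - K₂) + Desig.size p Vc ⟨d.F - d₂.F, d.a - d₂.a⟩ with hDdef
  have hDfin : D ≠ ⊤ := by
    have h1 : actNorm p P.g Vf (K - K₂) ≠ ⊤ :=
      ne_top_of_le_ne_top (ENNReal.add_ne_top.2 ⟨ENNReal.coe_ne_top, ENNReal.coe_ne_top⟩)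
        ((actNorm_sub_le p P.g Vf K K₂).trans (add_le_add hKε hK₂ε))
    have h2 : Desig.size p Vc ⟨d.F - d₂.F, d.a - d₂.a⟩ ≠ ⊤ := by
      have hline : ∀ (x y : Desig P.g' (Fn G)), Desig.size p Vc ⟨x.F - y.F, x.a - y.a⟩ ≤ x.size p Vc + y.size p Vc := by
        intro x y
        have h := lineD_size_le p Vc ⟨x.F + y.F, x.a + y.a⟩ x (-1)
        have hl : lineD (⟨x.F + y.F, x.a + y.a⟩ : Desig P.g' (Fn G)) x (-1) = ⟨x.F - y.F, x.a - y.a⟩ := by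
          simp [lineD, sub_eq_add_neg]
        rw [hl] at h
        simpa using h
      exact ne_top_of_le_ne_top (ENNReal.add_ne_top.2 ⟨ENNReal.mul_ne_top ENNReal.coe_ne_top ENNReal.coe_ne_top,
        ENNReal.mul_ne_top ENNReal.coe_ne_top ENNReal.coe_ne_top⟩) ((hline d d₂).trans (add_le_add hdε hd₂ε))
    exact ENNReal.add_ne_top.2 ⟨h1, h2⟩
  obtain ⟨D₀, hD₀⟩ : ∃ D₀ : ℝ≥0, D = D₀ := ⟨D.toNNReal, (ENNReal.coe_toNNReal hDfin).symm⟩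
  rw [hD₀]
  refine ENNReal.le_of_forall_pos_le_add fun η hη _ => ?_
  have hpos : 0 < D₀ + η / (8 * C * ε + 1) := by positivity
  have main := lipschitz_aux hA hR hreg hq hε hε1 hK hK₂ hd hd₂ hKε hK₂ε hdε hd₂ε hpos
    (by rw [← hDdef, hD₀]; exact_mod_cast le_self_add)
  refine main.trans ?_
  have h3 : 8 * C * ε * (D₀ + η / (8 * C * ε + 1)) ≤ 8 * C * ε * D₀ + η := by
    rw [mul_add]
    gcongr
    rw [← mul_div_assoc, div_le_iff₀ (by positivity), mul_comm]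
    gcongr
    exact le_self_add
  exact_mod_cast h3

end one

/-- the norms of the scalar representation are the norms of `scalarSizes` -/
theorem nf_scalarSizes {D0 ℓ : ℕ} (P : Pair G D0 ℓ) (Γ : Matrix G.V G.V ℝ) (Vf : Extra P.g) (Vc : Extra P.g') (p : Par)
    (hA : 0 ≤ p.A) (R n0 : ℕ) (cst : ℝ≥0∞) (hreg : RegStable R n0 cst p.δ p.κ P Vf Vc Γ) (hp : p.Adm P.g')
    (hR : max 5 Vf.sep ≤ R) (K : Act P.g) :
    (scalarSizes P Γ Vf Vc p R n0 cst hreg hp hR).nf p.A.toNNReal K = actNorm p P.g Vf K := by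
  unfold SizeSys.nf actNorm
  refine iSup_congr fun X => ?_
  rw [ENNReal.ofReal_pow hA]
  rfl

theorem nc_scalarSizes {D0 ℓ : ℕ} (P : Pair G D0 ℓ) (Γ : Matrix G.V G.V ℝ) (Vf : Extra P.g) (Vc : Extra P.g') (p : Par)
    (hA : 0 ≤ p.A) (R n0 : ℕ) (cst : ℝ≥0∞) (hreg : RegStable R n0 cst p.δ p.κ P Vf Vc Γ) (hp : p.Adm P.g')
    (hR : max 5 Vf.sep ≤ R) (K : Act P.g') :
    (scalarSizes P Γ Vf Vc p R n0 cst hreg hp hR).nc p.A.toNNReal K = actNorm p P.g' Vc K := by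
  unfold SizeSys.nc actNorm
  refine iSup_congr fun X => ?_
  rw [ENNReal.ofReal_pow hA]
  rfl

theorem nd_scalarSizes {D0 ℓ : ℕ} (P : Pair G D0 ℓ) (Γ : Matrix G.V G.V ℝ) (Vf : Extra P.g) (Vc : Extra P.g') (p : Par)
    (R n0 : ℕ) (cst : ℝ≥0∞) (hreg : RegStable R n0 cst p.δ p.κ P Vf Vc Γ) (hp : p.Adm P.g')
    (hR : max 5 Vf.sep ≤ R) (d : Desig P.g' (Fn G)) :
    (scalarSizes P Γ Vf Vc p R n0 cst hreg hp hR).nd d = d.size p Vc := rfl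

/-- **Proposition 4.8 / [F] P4.2**, scalar representation: quadratic bound and its Lipschitz form, from the abstract enumeration `NlAbs`. -/
theorem nonlinear_map_of_abs (r R n0 sepV : ℕ) (hs : max 5 sepV < r) (hrR : r + 2 < R) (cst Cd : ℝ≥0)
    (δ κ : ℝ) (h0 : ℝ≥0) (habs : NlAbs r R (max 5 sepV) cst (Cd + 1)) :
    ∃ (ℓ0 D1 : ℕ), ∀ ℓ ≥ ℓ0, ∃ A0 : ℝ, ∀ A ≥ A0, ∃ (C ε0 : ℝ≥0), 0 < ε0 ∧
      ∀ D0 ≥ D1, ∀ (ω : ℝ) (col : ℕ) (G : Geom) (P : Pair G D0 ℓ) (Γ : Matrix G.V G.V ℝ) (Vf : Extra P.g) (Vc : Extra P.g'),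
      RegStable R n0 cst δ κ P Vf Vc Γ → Par.Adm ⟨δ, κ, h0, A, ω⟩ P.g' → Vf.sep ≤ sepV → Vc.sep ≤ sepV →
      ∀ (ε : ℝ≥0), ε ≤ ε0 → ∀ (K K₂ : Act P.g) (d d₂ : Desig P.g' (Fn G)),
        Act.Ok ⟨δ, κ, h0, A, ω⟩ col R K → Act.Ok ⟨δ, κ, h0, A, ω⟩ col R K₂ → d.Ok ⟨δ, κ, h0, A, ω⟩ col r → d₂.Ok ⟨δ, κ, h0, A, ω⟩ col r →
        actNorm ⟨δ, κ, h0, A, ω⟩ P.g Vf K ≤ ε → actNorm ⟨δ, κ, h0, A, ω⟩ P.g Vf K₂ ≤ ε →
        d.size ⟨δ, κ, h0, A, ω⟩ Vc ≤ Cd * ε → d₂.size ⟨δ, κ, h0, A, ω⟩ Vc ≤ Cd * ε →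
        actNorm ⟨δ, κ, h0, A, ω⟩ P.g' Vc (Kprime P r R (conv Γ) K d - Klin P R (conv Γ) K d) ≤ C * ε ^ 2 ∧
        actNorm ⟨δ, κ, h0, A, ω⟩ P.g' Vc
            ((Kprime P r R (conv Γ) K d - Klin P R (conv Γ) K d) - (Kprime P r R (conv Γ) K₂ d₂ - Klin P R (conv Γ) K₂ d₂))
          ≤ C * ε * (actNorm ⟨δ, κ, h0, A, ω⟩ P.g Vf (K - K₂)
              + Desig.size ⟨δ, κ, h0, A, ω⟩ Vc ⟨d.F - d₂.F, d.a - d₂.a⟩) := by
  obtain ⟨ℓ0, D1, H⟩ := habs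
  refine ⟨ℓ0, D1, fun ℓ hℓ => ?_⟩
  obtain ⟨A0, H⟩ := H ℓ hℓ
  refine ⟨max (A0 : ℝ) 1, fun A hA => ?_⟩
  have hA1 : (1 : ℝ) ≤ A := le_trans (le_max_right _ _) hA
  have hA0 : 0 < A := by linarith
  have hAA : A0 ≤ A.toNNReal := by
    rw [← NNReal.coe_le_coe, Real.coe_toNNReal A hA0.le]
    exact le_trans (le_max_left _ _) hA
  obtain ⟨C, ε0, hε0, H⟩ := H A.toNNReal hAA
  refine ⟨8 * C, min (ε0 / 2) (1 / (2 * (Cd + 1))), by positivity, ?_⟩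
  intro D0 hD0 ω col G P Γ Vf Vc hreg hp hVf hVc ε hε K K₂ d d₂ hK hK₂ hd hd₂ hKε hK₂ε hdε hd₂ε
  set p : Par := ⟨δ, κ, h0, A, ω⟩ with hpdef
  have hR : max 5 Vf.sep ≤ R := by
    have : max 5 Vf.sep ≤ max 5 sepV := max_le_max le_rfl hVf
    omega
  have hq : QuadAt P Γ Vf Vc p r R (Cd + 1) C ε0 := by
    intro K' d' hd' ε' hε' hKε' hdε'
    have := H D0 hD0 G P (Fn G) (conv Γ) (scalarSizes P Γ Vf Vc p R n0 cst hreg hp hR) K' d'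
      (max_le_max le_rfl hVc) le_rfl hd' ε' hε'
      (by rw [nf_scalarSizes P Γ Vf Vc p hA0.le]; exact hKε') (by rw [nd_scalarSizes]; exact hdε')
    rwa [nc_scalarSizes P Γ Vf Vc p hA0.le] at this
  have hε2 : 2 * ε ≤ ε0 := by
    have h1 : ε ≤ ε0 / 2 := le_trans hε (min_le_left _ _)
    calc 2 * ε ≤ 2 * (ε0 / 2) := by gcongr
      _ = ε0 := by rw [mul_div_assoc']; exact mul_div_cancel_left₀ _ two_ne_zero
  have hε1 : (Cd + 1) * ε < 1 := by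
    have h1 : ε ≤ 1 / (2 * (Cd + 1)) := le_trans hε (min_le_right _ _)
    calc (Cd + 1) * ε ≤ (Cd + 1) * (1 / (2 * (Cd + 1))) := by gcongr
      _ = 1 / 2 := by field_simp
      _ < 1 := by norm_num
  constructor
  · have hεε0 : ε ≤ ε0 := le_trans (by nth_rewrite 1 [← one_mul ε]; gcongr; norm_num) hε2
    have h1 := hq K d hd.small ε hεε0 hKε (hdε.trans (by gcongr; exact_mod_cast le_self_add))
    refine h1.trans ?_
    gcongr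
    have : C ≤ 8 * C := by nth_rewrite 1 [← one_mul C]; gcongr; norm_num
    exact_mod_cast this
  · exact lipschitz_of_quad hA0 hR hreg hq hε2 hε1 hK hK₂ hd hd₂ hKε hK₂ε hdε hd₂ε

end

end Claimed.Agent.R285.Scal
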