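import Claimed.Agent.R285.Scal.Sizes

/-!
# ROW 285, package PK-SCAL, file 3: the class `LocalFn` is closed under the algebra operations, enlargement of the support, coarsening     (helper218)
Free for every package (`localFn_*`).
-/

set_option autoImplicit false

namespace Claimed.Agent.R285.Scal

open scoped BigOperators ENNReal NNReal
open MeasureTheory ProbabilityTheory
open Claimed.Agent.R285.RG Claimed.Agent.R285

noncomputable section

variable {G : Geom} {p : Par} {col : ℕ} {g : Grid G} {X : Finset g.I}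

theorem strip_anti (h : ℝ≥0) (g : Grid G) {X Y : Finset g.I} (hXY : X ⊆ Y) : strip h g Y ⊆ strip h g X := fun z hz =>
  (Hol.tnorm_mono g X Y hXY _).trans_lt hz

theorem strip_coarse (h : ℝ≥0) {D0 ℓ : ℕ} (P : Pair G D0 ℓ) {X : Finset P.g.I} {Y : Finset P.g'.I} (hXY : P.N.cl X ⊆ Y) :
    strip h P.g' Y ⊆ strip h P.g X := fun z hz => (Hol.tnorm_coarse P X Y hXY _).trans_lt hz

theorem sites_coarse {D0 ℓ : ℕ} (P : Pair G D0 ℓ) {X : Finset P.g.I} {Y : Finset P.g'.I} (hXY : P.N.cl X ⊆ Y) :
    P.g.sites X ⊆ P.g'.sites Y := by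
  intro v hv
  simp only [Grid.sites, Finset.mem_filter, Finset.mem_univ, true_and] at hv ⊢
  rw [Hol.blk_up P v]
  exact hXY (Finset.mem_image_of_mem _ hv)

theorem toC_mem_strip {h : ℝ≥0} (hh : 0 < h) (g : Grid G) (X : Finset g.I) (φ : G.V → ℝ) : toC φ ∈ strip h g X := by
  have := Hol.toC_add_mem_strip (h := h) (g := g) (X := X) φ (f := 0) (by rwa [Hol.tnorm_zero])
  rwa [add_zero] at this

theorem localFn_const (p : Par) (col : ℕ) (g : Grid G) (X : Finset g.I) (c : ℂ) : LocalFn p col g X (fun _ => c) where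
  hol := differentiableOn_const c
  loc := fun _ _ _ _ _ => rfl
  per := fun _ _ => rfl

theorem localFn_zero (p : Par) (col : ℕ) (g : Grid G) (X : Finset g.I) : LocalFn p col g X 0 := localFn_const p col g X 0

theorem localFn_one (p : Par) (col : ℕ) (g : Grid G) (X : Finset g.I) : LocalFn p col g X 1 := localFn_const p col g X 1

theorem localFn_add {F F' : Fn G} (h : LocalFn p col g X F) (h' : LocalFn p col g X F') : LocalFn p col g X (F + F') where
  hol := h.hol.add h'.hol
  loc := fun z hz z' hz' hzz => by rw [Pi.add_apply, Pi.add_apply, h.loc z hz z' hz' hzz, h'.loc z hz z' hz' hzz]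
  per := fun z hz => by rw [Pi.add_apply, Pi.add_apply, h.per z hz, h'.per z hz]

theorem localFn_neg {F : Fn G} (h : LocalFn p col g X F) : LocalFn p col g X (-F) where
  hol := h.hol.neg
  loc := fun z hz z' hz' hzz => by rw [Pi.neg_apply, Pi.neg_apply, h.loc z hz z' hz' hzz]
  per := fun z hz => by rw [Pi.neg_apply, Pi.neg_apply, h.per z hz]

theorem localFn_sub {F F' : Fn G} (h : LocalFn p col g X F) (h' : LocalFn p col g X F') : LocalFn p col g X (F - F') := by
  rw [sub_eq_add_neg]
  exact localFn_add h (localFn_neg h')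

theorem localFn_mul {F F' : Fn G} (h : LocalFn p col g X F) (h' : LocalFn p col g X F') : LocalFn p col g X (F * F') where
  hol := h.hol.mul h'.hol
  loc := fun z hz z' hz' hzz => by rw [Pi.mul_apply, Pi.mul_apply, h.loc z hz z' hz' hzz, h'.loc z hz z' hz' hzz]
  per := fun z hz => by rw [Pi.mul_apply, Pi.mul_apply, h.per z hz, h'.per z hz]

theorem localFn_smul (c : ℂ) {F : Fn G} (h : LocalFn p col g X F) : LocalFn p col g X (c • F) where
  hol := h.hol.const_smul c
  loc := fun z hz z' hz' hzz => by rw [Pi.smul_apply, Pi.smul_apply, h.loc z hz z' hz' hzz]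
  per := fun z hz => by rw [Pi.smul_apply, Pi.smul_apply, h.per z hz]

theorem localFn_sum {ι : Type} (s : Finset ι) (F : ι → Fn G) (h : ∀ i ∈ s, LocalFn p col g X (F i)) :
    LocalFn p col g X (∑ i ∈ s, F i) := by
  classical
  induction s using Finset.induction_on with
  | empty => simpa using localFn_zero p col g X
  | insert a s ha ih =>
    rw [Finset.sum_insert ha]
    exact localFn_add (h a (Finset.mem_insert_self _ _)) (ih fun i hi => h i (Finset.mem_insert_of_mem hi))

theorem localFn_prod {ι : Type} (s : Finset ι) (F : ι → Fn G) (h : ∀ i ∈ s, LocalFn p col g X (F i)) :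
    LocalFn p col g X (∏ i ∈ s, F i) := by
  classical
  induction s using Finset.induction_on with
  | empty => simpa using localFn_one p col g X
  | insert a s ha ih =>
    rw [Finset.prod_insert ha]
    exact localFn_mul (h a (Finset.mem_insert_self _ _)) (ih fun i hi => h i (Finset.mem_insert_of_mem hi))

/-- enlargement of the support -/
theorem localFn_mono {Y : Finset g.I} (hXY : X ⊆ Y) {F : Fn G} (h : LocalFn p col g X F) : LocalFn p col g Y F where
  hol := h.hol.mono (strip_anti _ g hXY)
  loc := fun z hz z' hz' hzz => h.loc z (strip_anti _ g hXY hz) z' (strip_anti _ g hXY hz') fun v ⟨w, hw, hwv⟩ =>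
    hzz v ⟨w, Hol.sites_mono g hXY hw, hwv⟩
  per := fun z hz => h.per z (strip_anti _ g hXY hz)

/-- coarsening -/
theorem localFn_coarse {D0 ℓ : ℕ} (P : Pair G D0 ℓ) {X : Finset P.g.I} {Y : Finset P.g'.I} (hXY : P.N.cl X ⊆ Y) {F : Fn G}
    (h : LocalFn p col P.g X F) : LocalFn p col P.g' Y F where
  hol := h.hol.mono (strip_coarse _ P hXY)
  loc := fun z hz z' hz' hzz => h.loc z (strip_coarse _ P hXY hz) z' (strip_coarse _ P hXY hz') fun v ⟨w, hw, hwv⟩ =>
    hzz v ⟨w, sites_coarse P hXY hw, hwv⟩
  per := fun z hz => h.per z (strip_coarse _ P hXY hz)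

/-- the product of the activities of the components -/
theorem localFn_prod_comps {R : ℕ} {K : Act g} (hK : ∀ X, LocalFn p col g X (K X)) (W : Finset g.I) :
    LocalFn p col g W (∏ X ∈ g.comps R W, K X) :=
  localFn_prod _ _ fun X hX => localFn_mono (Alg.comps_subset hX) (hK X)

/-- linear combinations of admissible activities -/
theorem actOk_add {R : ℕ} {K K' : Act g} (h : Act.Ok p col R K) (h' : Act.Ok p col R K') : Act.Ok p col R (K + K') where
  fn := fun X => localFn_add (h.fn X) (h'.fn X)
  poly := fun X hX => by rw [Pi.add_apply, h.poly X hX, h'.poly X hX, add_zero]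

theorem actOk_sub {R : ℕ} {K K' : Act g} (h : Act.Ok p col R K) (h' : Act.Ok p col R K') : Act.Ok p col R (K - K') where
  fn := fun X => localFn_sub (h.fn X) (h'.fn X)
  poly := fun X hX => by rw [Pi.sub_apply, h.poly X hX, h'.poly X hX, sub_zero]

theorem actOk_smul {R : ℕ} (c : ℂ) {K : Act g} (h : Act.Ok p col R K) : Act.Ok p col R (c • K) where
  fn := fun X => localFn_smul c (h.fn X)
  poly := fun X hX => by rw [Pi.smul_apply, h.poly X hX, smul_zero]

theorem actOk_zero (p : Par) (col R : ℕ) (g : Grid G) : Act.Ok p col R (0 : Act g) where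
  fn := fun X => localFn_zero p col g X
  poly := fun _ _ => rfl

end

end Claimed.Agent.R285.Scal
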