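import Claimed.Agent.R285.Hol.Tn
import Claimed.Agent.R285.Hol.Gs
import Claimed.Agent.R285.Alg.Comps
import Claimed.Agent.R285.Reg.Main

/-!
# ROW 285, package PK-SCAL (scalar representation of [B] P4.8), file 1: regulators and the calculus of `ptNorm`, `fnSize`, `actNorm`     (helper218)

Everything here is elementary; free for every package.  Only input from other packages: `Reg.reg_regulator_add` (additivity of `U` on `Sep 5` supports).
-/

set_option autoImplicit false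

namespace Claimed.Agent.R285.Scal

open scoped BigOperators ENNReal NNReal
open MeasureTheory ProbabilityTheory
open Claimed.Agent.R285.RG Claimed.Agent.R285

noncomputable section

variable {G : Geom}

/-! ## 1. regulators -/

theorem gE_nonneg (D : Finset G.V) (φ : G.V → ℝ) : 0 ≤ gE G D φ := by
  unfold gE
  positivity

theorem PE_nonneg (m : ℕ) (D : Finset G.V) (φ : G.V → ℝ) : 0 ≤ PE G m D φ := by
  unfold PE
  refine mul_nonneg (Nat.cast_nonneg _) (Finset.sum_nonneg fun v _ => Finset.sum_nonneg fun e _ => ?_)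
  split_ifs
  · exact le_rfl
  · positivity

theorem TE_nonneg (g : Grid G) (Y : Finset g.I) (φ : G.V → ℝ) : 0 ≤ TE g Y φ := by
  unfold TE
  positivity

theorem U_nonneg (g : Grid G) {δ : ℝ} (hδ : 0 ≤ δ) (X : Finset g.I) (φ : G.V → ℝ) : 0 ≤ U g δ X φ := by
  unfold U
  have h1 := gE_nonneg (g.Dm X) φ
  have h2 := PE_nonneg g.m (g.Dm X) φ
  have h3 := TE_nonneg g (g.collar X) φ
  positivity

theorem collar_empty (g : Grid G) : g.collar (∅ : Finset g.I) = ∅ := by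
  simp [Grid.collar]

theorem Dm_empty (g : Grid G) : g.Dm (∅ : Finset g.I) = ∅ := by
  simp [Grid.Dm, collar_empty, Grid.sites]

theorem U_empty (g : Grid G) (δ : ℝ) (φ : G.V → ℝ) : U g δ ∅ φ = 0 := by
  simp [U, Dm_empty, collar_empty, gE, PE, TE]

theorem one_le_Wt (g : Grid G) {δ κ : ℝ} (hδ : 0 ≤ δ) (hκ : 0 ≤ κ) (V : Extra g) (X : Finset g.I) (φ : G.V → ℝ) :
    1 ≤ Wt g δ κ V X φ := by
  unfold Wt
  exact Real.one_le_exp (add_nonneg (mul_nonneg hκ (U_nonneg g hδ X φ)) (V.nonneg X φ))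

theorem one_le_Wt_empty (g : Grid G) (δ κ : ℝ) (V : Extra g) (φ : G.V → ℝ) : 1 ≤ Wt g δ κ V ∅ φ := by
  unfold Wt
  rw [U_empty, mul_zero, zero_add]
  exact Real.one_le_exp (V.nonneg _ _)

theorem Wt_mono (p : Par) (g : Grid G) (hp : p.Adm g) (V : Extra g) {X X' : Finset g.I} (h : X ⊆ X') (φ : G.V → ℝ) :
    Wt g p.δ p.κ V X φ ≤ Wt g p.δ p.κ V X' φ := by
  unfold Wt
  exact Real.exp_le_exp.2 (add_le_add (mul_le_mul_of_nonneg_left (hp.mono X X' h φ) hp.κ_pos.le) (V.mono X X' φ h))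

theorem Wt_mul_le (g : Grid G) (hg : g.Ok) (δ κ : ℝ) (V : Extra g) {X X' : Finset g.I} (h : g.Sep (max 5 V.sep) X X')
    (φ : G.V → ℝ) : Wt g δ κ V X φ * Wt g δ κ V X' φ ≤ Wt g δ κ V (X ∪ X') φ := by
  unfold Wt
  rw [← Real.exp_add]
  refine Real.exp_le_exp.2 ?_
  rw [Reg.reg_regulator_add G g hg δ X X' (Alg.sep_le h (le_max_left _ _)) φ]
  have := V.add X X' φ (Alg.sep_le h (le_max_right _ _))
  linarith

/-- the regulators of the components multiply to at most the regulator of the union -/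
theorem Wt_prod_comps_le (g : Grid G) (hg : g.Ok) (δ κ : ℝ) (V : Extra g) {R : ℕ} (hR : max 5 V.sep ≤ R)
    (W : Finset g.I) (φ : G.V → ℝ) : ∏ X ∈ g.comps R W, Wt g δ κ V X φ ≤ Wt g δ κ V W φ := by
  induction' hn : W.card using Nat.strong_induction_on with n ih generalizing W
  rcases W.eq_empty_or_nonempty with rfl | ⟨a, ha⟩
  · simpa [Alg.comps_empty] using one_le_Wt_empty g δ κ V φ
  · obtain ⟨X, hX, haX⟩ := Alg.comps_cover (R := R) ha
    have hsep := Alg.comps_sep_sdiff hX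
    have hW : W = X ∪ (W \ X) := by rw [Finset.union_sdiff_of_subset (Alg.comps_subset hX)]
    have hcard : (W \ X).card < n := by
      rw [← hn]
      exact Finset.card_lt_card (Finset.sdiff_ssubset (Alg.comps_subset hX) ⟨a, haX⟩)
    have h1 : ∏ Y ∈ g.comps R W, Wt g δ κ V Y φ
        = Wt g δ κ V X φ * ∏ Y ∈ g.comps R (W \ X), Wt g δ κ V Y φ := by
      conv_lhs => rw [hW]
      rw [Alg.prod_comps_union _ hsep, Alg.comps_self (Alg.comps_conn hX), Finset.prod_singleton]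
    rw [h1]
    calc Wt g δ κ V X φ * ∏ Y ∈ g.comps R (W \ X), Wt g δ κ V Y φ
        ≤ Wt g δ κ V X φ * Wt g δ κ V (W \ X) φ :=
          mul_le_mul_of_nonneg_left (ih _ hcard _ rfl) (Hol.Wt_pos g δ κ V X φ).le
      _ ≤ Wt g δ κ V (X ∪ (W \ X)) φ := Wt_mul_le g hg δ κ V (Alg.sep_le hsep hR) φ
      _ = Wt g δ κ V W φ := by rw [← hW]

theorem ofReal_Wt_ne_zero (g : Grid G) (δ κ : ℝ) (V : Extra g) (X : Finset g.I) (φ : G.V → ℝ) :
    ENNReal.ofReal (Wt g δ κ V X φ) ≠ 0 := by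
  simpa using Hol.Wt_pos g δ κ V X φ

/-! ## 2. the point norm -/

theorem ptNorm_zero (h0 : ℝ≥0) (g : Grid G) (X : Finset g.I) (φ : G.V → ℝ) : ptNorm h0 g X 0 φ = 0 := by
  rw [← nonpos_iff_eq_zero, Hol.ptNorm_le_iff]
  intro f _
  simp

theorem ptNorm_add_le (h0 : ℝ≥0) (g : Grid G) (X : Finset g.I) (F F' : Fn G) (φ : G.V → ℝ) :
    ptNorm h0 g X (F + F') φ ≤ ptNorm h0 g X F φ + ptNorm h0 g X F' φ := by
  rw [Hol.ptNorm_le_iff]
  intro f hf
  calc (‖(F + F') (toC φ + f)‖₊ : ℝ≥0∞) ≤ ‖F (toC φ + f)‖₊ + ‖F' (toC φ + f)‖₊ := by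
        rw [Pi.add_apply, ← ENNReal.coe_add]
        exact ENNReal.coe_le_coe.2 (nnnorm_add_le _ _)
    _ ≤ _ := add_le_add (Hol.le_ptNorm h0 g X F φ f hf) (Hol.le_ptNorm h0 g X F' φ f hf)

theorem ptNorm_smul_le (h0 : ℝ≥0) (g : Grid G) (X : Finset g.I) (c : ℂ) (F : Fn G) (φ : G.V → ℝ) :
    ptNorm h0 g X (c • F) φ ≤ ‖c‖₊ * ptNorm h0 g X F φ := by
  rw [Hol.ptNorm_le_iff]
  intro f hf
  calc (‖(c • F) (toC φ + f)‖₊ : ℝ≥0∞) = ‖c‖₊ * ‖F (toC φ + f)‖₊ := by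
        rw [Pi.smul_apply, smul_eq_mul, nnnorm_mul, ENNReal.coe_mul]
    _ ≤ _ := mul_le_mul' le_rfl (Hol.le_ptNorm h0 g X F φ f hf)

theorem ptNorm_one_le (h0 : ℝ≥0) (g : Grid G) (X : Finset g.I) (φ : G.V → ℝ) : ptNorm h0 g X 1 φ ≤ 1 := by
  rw [Hol.ptNorm_le_iff]
  intro f _
  simp

theorem ptNorm_anti (h0 : ℝ≥0) (g : Grid G) {X Y : Finset g.I} (h : X ⊆ Y) (F : Fn G) (φ : G.V → ℝ) :
    ptNorm h0 g Y F φ ≤ ptNorm h0 g X F φ := by
  rw [Hol.ptNorm_le_iff]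
  intro f hf
  exact Hol.le_ptNorm h0 g X F φ f ((Hol.tnorm_mono g X Y h f).trans_lt hf)

theorem ptNorm_prod_le (h0 : ℝ≥0) (g : Grid G) (Y : Finset g.I) {ι : Type} (s : Finset ι) (σ : ι → Finset g.I)
    (hσ : ∀ i ∈ s, σ i ⊆ Y) (F : ι → Fn G) (φ : G.V → ℝ) :
    ptNorm h0 g Y (∏ i ∈ s, F i) φ ≤ ∏ i ∈ s, ptNorm h0 g (σ i) (F i) φ := by
  rw [Hol.ptNorm_le_iff]
  intro f hf
  rw [Finset.prod_apply, nnnorm_prod, ENNReal.ofNNReal_finsetProd]
  exact Finset.prod_le_prod' fun i hi =>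
    Hol.le_ptNorm h0 g (σ i) (F i) φ f ((Hol.tnorm_mono g (σ i) Y (hσ i hi) f).trans_lt hf)

/-! ## 3. the size of one function -/

theorem fnSize_zero (p : Par) (g : Grid G) (V : Extra g) (X : Finset g.I) : fnSize p g V X 0 = 0 := by
  rw [← nonpos_iff_eq_zero, Hol.fnSize_le_iff]
  intro φ f _
  simp

theorem fnSize_add_le (p : Par) (g : Grid G) (V : Extra g) (X : Finset g.I) (F F' : Fn G) :
    fnSize p g V X (F + F') ≤ fnSize p g V X F + fnSize p g V X F' := by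
  rw [Hol.fnSize_le_iff]
  intro φ f hf
  rw [add_mul]
  calc (‖(F + F') (toC φ + f)‖₊ : ℝ≥0∞) ≤ ‖F (toC φ + f)‖₊ + ‖F' (toC φ + f)‖₊ := by
        rw [Pi.add_apply, ← ENNReal.coe_add]
        exact ENNReal.coe_le_coe.2 (nnnorm_add_le _ _)
    _ ≤ _ := add_le_add (Hol.nnnorm_le_fnSize_mul p g V X F φ f hf) (Hol.nnnorm_le_fnSize_mul p g V X F' φ f hf)

theorem fnSize_smul_le (p : Par) (g : Grid G) (V : Extra g) (X : Finset g.I) (c : ℂ) (F : Fn G) :
    fnSize p g V X (c • F) ≤ ‖c‖₊ * fnSize p g V X F := by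
  rw [Hol.fnSize_le_iff]
  intro φ f hf
  rw [mul_assoc]
  calc (‖(c • F) (toC φ + f)‖₊ : ℝ≥0∞) = ‖c‖₊ * ‖F (toC φ + f)‖₊ := by
        rw [Pi.smul_apply, smul_eq_mul, nnnorm_mul, ENNReal.coe_mul]
    _ ≤ _ := mul_le_mul' le_rfl (Hol.nnnorm_le_fnSize_mul p g V X F φ f hf)

theorem fnSize_neg (p : Par) (g : Grid G) (V : Extra g) (X : Finset g.I) (F : Fn G) :
    fnSize p g V X (-F) = fnSize p g V X F := by
  have key : ∀ F : Fn G, fnSize p g V X (-F) ≤ fnSize p g V X F := fun F => by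
    have := fnSize_smul_le p g V X (-1) F
    simpa using this
  refine le_antisymm (key F) ?_
  have := key (-F)
  rwa [neg_neg] at this

theorem fnSize_sub_le (p : Par) (g : Grid G) (V : Extra g) (X : Finset g.I) (F F' : Fn G) :
    fnSize p g V X (F - F') ≤ fnSize p g V X F + fnSize p g V X F' := by
  rw [sub_eq_add_neg]
  exact (fnSize_add_le p g V X F (-F')).trans (by rw [fnSize_neg])

theorem fnSize_one_le (p : Par) (g : Grid G) (hδ : 0 ≤ p.δ) (hκ : 0 ≤ p.κ) (V : Extra g) (X : Finset g.I) :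
    fnSize p g V X 1 ≤ 1 := by
  rw [Hol.fnSize_le_iff]
  intro φ f _
  rw [one_mul]
  simpa using one_le_Wt g hδ hκ V X φ

theorem fnSize_anti (p : Par) (g : Grid G) (hp : p.Adm g) (V : Extra g) {X Y : Finset g.I} (h : X ⊆ Y) (F : Fn G) :
    fnSize p g V Y F ≤ fnSize p g V X F := by
  rw [Hol.fnSize_le_iff]
  intro φ f hf
  exact (Hol.nnnorm_le_fnSize_mul p g V X F φ f ((Hol.tnorm_mono g X Y h f).trans_lt hf)).trans
    (mul_le_mul' le_rfl (ENNReal.ofReal_le_ofReal (Wt_mono p g hp V h φ)))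

theorem fnSize_mul_le (p : Par) (g : Grid G) (hg : g.Ok) (V : Extra g) {X X' : Finset g.I}
    (h : g.Sep (max 5 V.sep) X X') (F F' : Fn G) :
    fnSize p g V (X ∪ X') (F * F') ≤ fnSize p g V X F * fnSize p g V X' F' := by
  rw [Hol.fnSize_le_iff]
  intro φ f hf
  have h1 := Hol.nnnorm_le_fnSize_mul p g V X F φ f
    ((Hol.tnorm_mono g X _ Finset.subset_union_left f).trans_lt hf)
  have h2 := Hol.nnnorm_le_fnSize_mul p g V X' F' φ f
    ((Hol.tnorm_mono g X' _ Finset.subset_union_right f).trans_lt hf)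
  calc (‖(F * F') (toC φ + f)‖₊ : ℝ≥0∞) = ‖F (toC φ + f)‖₊ * ‖F' (toC φ + f)‖₊ := by
        rw [Pi.mul_apply, nnnorm_mul, ENNReal.coe_mul]
    _ ≤ (fnSize p g V X F * ENNReal.ofReal (Wt g p.δ p.κ V X φ))
          * (fnSize p g V X' F' * ENNReal.ofReal (Wt g p.δ p.κ V X' φ)) := mul_le_mul' h1 h2
    _ = fnSize p g V X F * fnSize p g V X' F'
          * ENNReal.ofReal (Wt g p.δ p.κ V X φ * Wt g p.δ p.κ V X' φ) := by
        rw [ENNReal.ofReal_mul (Hol.Wt_pos g p.δ p.κ V X φ).le]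
        ring
    _ ≤ _ := mul_le_mul' le_rfl (ENNReal.ofReal_le_ofReal (Wt_mul_le g hg p.δ p.κ V h φ))

/-- product inequality for a compatible family (components of `W`) -/
theorem fnSize_prod_comps_le (p : Par) (g : Grid G) (hg : g.Ok) (V : Extra g) {R : ℕ} (hR : max 5 V.sep ≤ R)
    (W : Finset g.I) (K : Act g) :
    fnSize p g V W (∏ X ∈ g.comps R W, K X) ≤ ∏ X ∈ g.comps R W, fnSize p g V X (K X) := by
  rw [Hol.fnSize_le_iff]
  intro φ f hf
  rw [Finset.prod_apply, nnnorm_prod, ENNReal.ofNNReal_finsetProd]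
  calc ∏ X ∈ g.comps R W, (‖K X (toC φ + f)‖₊ : ℝ≥0∞)
      ≤ ∏ X ∈ g.comps R W, (fnSize p g V X (K X) * ENNReal.ofReal (Wt g p.δ p.κ V X φ)) :=
        Finset.prod_le_prod' fun X hX => Hol.nnnorm_le_fnSize_mul p g V X (K X) φ f
          ((Hol.tnorm_mono g X W (Alg.comps_subset hX) f).trans_lt hf)
    _ = (∏ X ∈ g.comps R W, fnSize p g V X (K X)) * ENNReal.ofReal (∏ X ∈ g.comps R W, Wt g p.δ p.κ V X φ) := by
        rw [Finset.prod_mul_distrib, ENNReal.ofReal_prod_of_nonneg fun X _ => (Hol.Wt_pos g p.δ p.κ V X φ).le]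
    _ ≤ _ := mul_le_mul' le_rfl (ENNReal.ofReal_le_ofReal (Wt_prod_comps_le g hg p.δ p.κ V hR W φ))

/-! ## 4. the norm of activities, the size of designated data -/

theorem le_actNorm (p : Par) (g : Grid G) (V : Extra g) (K : Act g) (X : Finset g.I) :
    ENNReal.ofReal (p.A ^ X.card) * fnSize p g V X (K X) ≤ actNorm p g V K :=
  le_iSup (fun X : Finset g.I => ENNReal.ofReal (p.A ^ X.card) * fnSize p g V X (K X)) X

theorem actNorm_le_iff (p : Par) (g : Grid G) (V : Extra g) (K : Act g) (c : ℝ≥0∞) :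
    actNorm p g V K ≤ c ↔ ∀ X, ENNReal.ofReal (p.A ^ X.card) * fnSize p g V X (K X) ≤ c := iSup_le_iff

theorem fnSize_ne_top (p : Par) (hA : 0 < p.A) (g : Grid G) (V : Extra g) (K : Act g) (hfin : actNorm p g V K ≠ ⊤)
    (X : Finset g.I) : fnSize p g V X (K X) ≠ ⊤ := by
  intro h
  apply hfin
  rw [← top_le_iff]
  refine le_trans ?_ (le_actNorm p g V K X)
  rw [h, ENNReal.mul_top]
  simpa using pow_pos hA _

theorem actNorm_add_le (p : Par) (g : Grid G) (V : Extra g) (K K' : Act g) :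
    actNorm p g V (K + K') ≤ actNorm p g V K + actNorm p g V K' := by
  rw [actNorm_le_iff]
  intro X
  calc ENNReal.ofReal (p.A ^ X.card) * fnSize p g V X ((K + K') X)
      ≤ ENNReal.ofReal (p.A ^ X.card) * (fnSize p g V X (K X) + fnSize p g V X (K' X)) :=
        mul_le_mul' le_rfl (fnSize_add_le p g V X _ _)
    _ = _ := mul_add _ _ _
    _ ≤ _ := add_le_add (le_actNorm p g V K X) (le_actNorm p g V K' X)

theorem actNorm_smul_le (p : Par) (g : Grid G) (V : Extra g) (c : ℂ) (K : Act g) :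
    actNorm p g V (c • K) ≤ ‖c‖₊ * actNorm p g V K := by
  rw [actNorm_le_iff]
  intro X
  calc ENNReal.ofReal (p.A ^ X.card) * fnSize p g V X ((c • K) X)
      ≤ ENNReal.ofReal (p.A ^ X.card) * (‖c‖₊ * fnSize p g V X (K X)) :=
        mul_le_mul' le_rfl (fnSize_smul_le p g V X c _)
    _ = ‖c‖₊ * (ENNReal.ofReal (p.A ^ X.card) * fnSize p g V X (K X)) := by ring
    _ ≤ _ := mul_le_mul' le_rfl (le_actNorm p g V K X)

theorem actNorm_sub_le (p : Par) (g : Grid G) (V : Extra g) (K K' : Act g) :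
    actNorm p g V (K - K') ≤ actNorm p g V K + actNorm p g V K' := by
  rw [actNorm_le_iff]
  intro X
  calc ENNReal.ofReal (p.A ^ X.card) * fnSize p g V X ((K - K') X)
      ≤ ENNReal.ofReal (p.A ^ X.card) * (fnSize p g V X (K X) + fnSize p g V X (K' X)) :=
        mul_le_mul' le_rfl (fnSize_sub_le p g V X _ _)
    _ = _ := mul_add _ _ _
    _ ≤ _ := add_le_add (le_actNorm p g V K X) (le_actNorm p g V K' X)

/-- pointwise form of a bound on the norm -/
theorem actNorm_le_iff' (p : Par) (g : Grid G) (V : Extra g) (K : Act g) (c : ℝ≥0∞) :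
    actNorm p g V K ≤ c ↔ ∀ (X : Finset g.I) (φ : G.V → ℝ) (f : G.V → ℂ), tnorm g X f < p.h0 →
      ENNReal.ofReal (p.A ^ X.card) * (‖K X (toC φ + f)‖₊ : ℝ≥0∞) ≤ c * ENNReal.ofReal (Wt g p.δ p.κ V X φ) := by
  rw [actNorm_le_iff]
  refine forall_congr' fun X => ?_
  constructor
  · intro h φ f hf
    calc ENNReal.ofReal (p.A ^ X.card) * (‖K X (toC φ + f)‖₊ : ℝ≥0∞)
        ≤ ENNReal.ofReal (p.A ^ X.card) * (fnSize p g V X (K X) * ENNReal.ofReal (Wt g p.δ p.κ V X φ)) :=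
          mul_le_mul' le_rfl (Hol.nnnorm_le_fnSize_mul p g V X (K X) φ f hf)
      _ = ENNReal.ofReal (p.A ^ X.card) * fnSize p g V X (K X) * ENNReal.ofReal (Wt g p.δ p.κ V X φ) := by ring
      _ ≤ _ := mul_le_mul' h le_rfl
  · intro h
    unfold fnSize
    rw [ENNReal.mul_iSup]
    refine iSup_le fun φ => ?_
    rw [← mul_div_assoc, ENNReal.div_le_iff (ofReal_Wt_ne_zero g p.δ p.κ V X φ) ENNReal.ofReal_ne_top]
    unfold ptNorm
    rw [ENNReal.mul_iSup]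
    exact iSup_le fun f => h φ f.1 f.2

theorem le_desigSize (p : Par) {g' : Grid G} (V : Extra g') (d : Desig g' (Fn G)) (b : g'.I) :
    (∑ Y : Finset g'.I, fnSize p g' V {b} (d.F Y b)) + (‖d.a b‖₊ : ℝ≥0∞) ≤ d.size p V :=
  le_iSup (fun b : g'.I => (∑ Y : Finset g'.I, fnSize p g' V {b} (d.F Y b)) + (‖d.a b‖₊ : ℝ≥0∞)) b

theorem nnnorm_a_le_size (p : Par) {g' : Grid G} (V : Extra g') (d : Desig g' (Fn G)) (b : g'.I) :
    (‖d.a b‖₊ : ℝ≥0∞) ≤ d.size p V := le_trans le_add_self (le_desigSize p V d b)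

end

end Claimed.Agent.R285.Scal
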