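import Claimed.Agent.R285.Alg.Comps

/-!
# ROW 285, package PK-SCAL, file 4: the CLOSURE PRINCIPLE for the explicit RG map `Kprime`     (helper218)

`Kprime (K, F, a) (Y)` is a finite polynomial in pieces whose supports lie in `Y`.  So every property of FAMILIES `t ↦ x t ∈ 𝔸` which
* is indexed by supports and monotone in the support,
* is closed under `0, 1, +, -, *` and multiplication by admissible scalar families,
passes from the inputs `E (∏ K X)` (support `\bar V`), `F_{Y,b}` (support `{b}`), `(1 + a_b)⁻¹ - 1` to `Kprime`, `Klin`.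
Instances (files `Ok.lean`, `Congr.lean`, `Par.lean`): `T = Unit`: `LocalFn` (period, locality, holomorphy in the field), evenness ..;
`T = Bool`: equality inside the strips (congruence); `T = ℂ`: holomorphy in a parameter.
Pure finite algebra; imports only `Base/RG` and `Alg/Comps`.
-/

set_option autoImplicit false

namespace Claimed.Agent.R285.Scal

open scoped BigOperators
open Claimed.Agent.R285.RG Claimed.Agent.R285

variable {G : Geom}

/-- a class of families `T → 𝔸`, indexed by supports, closed under the operations of the RG map -/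
structure FamCls (T : Type) (𝔸 : Type) [CommRing 𝔸] [Algebra ℂ 𝔸] (g' : Grid G) where
  /-- the family is in the class on the support `X` -/
  mem : Finset g'.I → (T → 𝔸) → Prop
  /-- admissible scalar families -/
  sc : (T → ℂ) → Prop
  mono : ∀ {X Y : Finset g'.I} {x : T → 𝔸}, X ⊆ Y → mem X x → mem Y x
  zero : ∀ X, mem X fun _ => 0
  one : ∀ X, mem X fun _ => 1
  add : ∀ {X : Finset g'.I} {x y : T → 𝔸}, mem X x → mem X y → mem X fun t => x t + y t
  sub : ∀ {X : Finset g'.I} {x y : T → 𝔸}, mem X x → mem X y → mem X fun t => x t - y t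
  mul : ∀ {X : Finset g'.I} {x y : T → 𝔸}, mem X x → mem X y → mem X fun t => x t * y t
  smul : ∀ {X : Finset g'.I} {c : T → ℂ} {x : T → 𝔸}, sc c → mem X x → mem X fun t => c t • x t
  sc_one : sc fun _ => 1
  sc_mul : ∀ {c c' : T → ℂ}, sc c → sc c' → sc fun t => c t * c' t

namespace FamCls

variable {T : Type} {𝔸 : Type} [CommRing 𝔸] [Algebra ℂ 𝔸] {g' : Grid G} (𝒞 : FamCls T 𝔸 g')

theorem sum {ι : Type} {X : Finset g'.I} (s : Finset ι) (x : ι → T → 𝔸) (h : ∀ i ∈ s, 𝒞.mem X (x i)) :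
    𝒞.mem X fun t => ∑ i ∈ s, x i t := by
  classical
  induction s using Finset.induction_on with
  | empty => simpa using 𝒞.zero X
  | insert a s ha ih =>
    simp only [Finset.sum_insert ha]
    exact 𝒞.add (h a (Finset.mem_insert_self _ _)) (ih fun i hi => h i (Finset.mem_insert_of_mem hi))

theorem prod {ι : Type} {X : Finset g'.I} (s : Finset ι) (x : ι → T → 𝔸) (h : ∀ i ∈ s, 𝒞.mem X (x i)) :
    𝒞.mem X fun t => ∏ i ∈ s, x i t := by
  classical
  induction s using Finset.induction_on with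
  | empty => simpa using 𝒞.one X
  | insert a s ha ih =>
    simp only [Finset.prod_insert ha]
    exact 𝒞.mul (h a (Finset.mem_insert_self _ _)) (ih fun i hi => h i (Finset.mem_insert_of_mem hi))

theorem sc_prod {ι : Type} (s : Finset ι) (c : ι → T → ℂ) (h : ∀ i ∈ s, 𝒞.sc (c i)) :
    𝒞.sc fun t => ∏ i ∈ s, c i t := by
  classical
  induction s using Finset.induction_on with
  | empty => simpa using 𝒞.sc_one
  | insert a s ha ih =>
    simp only [Finset.prod_insert ha]
    exact 𝒞.sc_mul (h a (Finset.mem_insert_self _ _)) (ih fun i hi => h i (Finset.mem_insert_of_mem hi))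

/-- one temporary object of a marked configuration with new support `Z` -/
theorem tempObj (r : ℕ) (Kt : T → Finset g'.I → 𝔸) (d : T → Desig g' 𝔸)
    (hKt : ∀ Y, 𝒞.mem Y fun t => Kt t Y) (hF : ∀ Y b, 𝒞.mem {b} fun t => (d t).F Y b)
    {W M Y : Finset g'.I} (hY : Y ∈ g'.comps r W) :
    𝒞.mem (newSupp r g' W M) fun t => tempObj g' (Kt t) (d t) M Y := by
  classical
  unfold RG.tempObj
  by_cases hYM : Y ∩ M = ∅
  · simp only [if_pos hYM]
    have hYZ : Y ⊆ newSupp r g' W M := by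
      intro a ha
      unfold newSupp
      refine Finset.mem_union_right _ (Finset.mem_biUnion.2 ⟨Y, ?_, ha⟩)
      exact Finset.mem_filter.2 ⟨hY, hYM⟩
    exact 𝒞.sub (𝒞.mono hYZ (hKt Y))
      (𝒞.sum _ _ fun b hb => 𝒞.mono (Finset.singleton_subset_iff.2 (hYZ hb)) (hF Y b))
  · simp only [if_neg hYM]
    refine 𝒞.sum _ _ fun b _ => ?_
    by_cases hb' : Y ∩ M = {b}
    · simp only [if_pos hb']
      have hbM : b ∈ M := by
        have : b ∈ Y ∩ M := by rw [hb']; exact Finset.mem_singleton_self b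
        exact (Finset.mem_inter.1 this).2
      refine 𝒞.mono (Finset.singleton_subset_iff.2 ?_) (hF Y b)
      unfold newSupp
      exact Finset.mem_union_left _ hbM
    · simp only [if_neg hb']
      exact 𝒞.zero _

/-- STEP 2 -/
theorem hrel (r R : ℕ) (Kt : T → Finset g'.I → 𝔸) (d : T → Desig g' 𝔸)
    (hKt : ∀ Y, 𝒞.mem Y fun t => Kt t Y) (hF : ∀ Y b, 𝒞.mem {b} fun t => (d t).F Y b) (Z : Finset g'.I) :
    𝒞.mem Z fun t => Hrel r R g' (Kt t) (d t) Z := by
  classical
  unfold Hrel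
  by_cases hZ : g'.Conn R Z
  · simp only [if_pos hZ]
    refine 𝒞.sum _ _ fun W _ => 𝒞.sum _ _ fun M hM => 𝒞.prod _ _ fun Y hY => ?_
    have hsupp : newSupp r g' W M = Z := (Finset.mem_filter.1 hM).2
    rw [← hsupp]
    exact 𝒞.tempObj r Kt d hKt hF hY
  · simp only [if_neg hZ]
    exact 𝒞.zero Z

/-- STEP 3 -/
theorem kext (R : ℕ) (H : T → Finset g'.I → 𝔸) (d : T → Desig g' 𝔸) (hH : ∀ Z, 𝒞.mem Z fun t => H t Z)
    (ha : ∀ b, 𝒞.sc fun t => (1 + (d t).a b)⁻¹ - 1) (Y : Finset g'.I) :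
    𝒞.mem Y fun t => Kext R g' (H t) (d t) Y := by
  classical
  unfold Kext
  by_cases hY : g'.Conn R Y
  · simp only [if_pos hY]
    refine 𝒞.sum _ _ fun Z hZ => 𝒞.sum _ _ fun M _ => 𝒞.smul (𝒞.sc_prod _ _ fun b _ => ha b) (𝒞.prod _ _ fun X hX => ?_)
    exact 𝒞.mono ((Alg.comps_subset hX).trans (Finset.mem_powerset.1 hZ)) (hH X)
  · simp only [if_neg hY]
    exact 𝒞.zero Y

end FamCls

namespace FamCls

variable {T : Type} {𝔸 : Type} [CommRing 𝔸] [Algebra ℂ 𝔸] {D0 ℓ : ℕ} {P : Pair G D0 ℓ} (𝒞 : FamCls T 𝔸 P.g')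

/-- STEP 1 -/
theorem ktil (r R : ℕ) (E : T → 𝔸 → 𝔸) (K : T → Finset P.g.I → 𝔸)
    (h : ∀ V, 𝒞.mem (P.N.cl V) fun t => E t (∏ X ∈ P.g.comps R V, K t X)) (Y : Finset P.g'.I) :
    𝒞.mem Y fun t => Ktil P r R (E t) (K t) Y := by
  classical
  unfold Ktil
  by_cases hY : P.g'.Conn r Y
  · simp only [if_pos hY]
    refine 𝒞.sum _ _ fun V hV => ?_
    have hcl : P.N.cl V = Y := (Finset.mem_filter.1 hV).2
    rw [← hcl]
    exact h V
  · simp only [if_neg hY]
    exact 𝒞.zero Y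

/-- **the closure principle for the RG map** -/
theorem kprime (r R : ℕ) (E : T → 𝔸 → 𝔸) (K : T → Finset P.g.I → 𝔸) (d : T → Desig P.g' 𝔸)
    (h : ∀ V, 𝒞.mem (P.N.cl V) fun t => E t (∏ X ∈ P.g.comps R V, K t X))
    (hF : ∀ Y b, 𝒞.mem {b} fun t => (d t).F Y b) (ha : ∀ b, 𝒞.sc fun t => (1 + (d t).a b)⁻¹ - 1) (Y : Finset P.g'.I) :
    𝒞.mem Y fun t => Kprime P r R (E t) (K t) (d t) Y :=
  𝒞.kext R _ d (𝒞.hrel r R _ d (𝒞.ktil r R E K h) hF) ha Y

/-- the closure principle for the linear part -/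
theorem klin (R : ℕ) (E : T → 𝔸 → 𝔸) (K : T → Finset P.g.I → 𝔸) (d : T → Desig P.g' 𝔸)
    (h : ∀ X, P.g.Conn R X → 𝒞.mem (P.N.cl X) fun t => E t (K t X))
    (hF : ∀ Y b, 𝒞.mem {b} fun t => (d t).F Y b) (ha : ∀ b, 𝒞.sc fun t => (d t).a b) (Y : Finset P.g'.I) :
    𝒞.mem Y fun t => Klin P R (E t) (K t) (d t) Y := by
  classical
  unfold Klin
  by_cases hY : P.g'.Conn R Y
  · simp only [if_pos hY]
    refine 𝒞.add (𝒞.sub (𝒞.sum _ _ fun X hX => ?_) (𝒞.sum _ _ fun b hb => ?_)) (𝒞.sum _ _ fun b hb => ?_)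
    · obtain ⟨hc, hcl⟩ := (Finset.mem_filter.1 hX).2
      rw [← hcl]
      exact h X hc
    · exact 𝒞.mono (Finset.singleton_subset_iff.2 hb) (hF Y b)
    · by_cases hYb : Y = {b}
      · simp only [if_pos hYb]
        refine 𝒞.sub (𝒞.sum _ _ fun Y' _ => ?_) (𝒞.smul (ha b) (𝒞.one Y))
        by_cases hbY : b ∈ Y'
        · simp only [if_pos hbY]
          exact 𝒞.mono (Finset.singleton_subset_iff.2 hb) (hF Y' b)
        · simp only [if_neg hbY]
          exact 𝒞.zero Y
      · simp only [if_neg hYb]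
        exact 𝒞.zero Y
  · simp only [if_neg hY]
    exact 𝒞.zero Y

end FamCls

end Claimed.Agent.R285.Scal
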