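import Claimed.Agent.R285.Scal.Local
import Claimed.Agent.R285.Hol.Cv

/-!
# ROW 285, package PK-SCAL, file 5: Gaussian convolution inside the strips     (helper218)

Integrability, additivity, preservation of `LocalFn` (the collar does not grow), congruence, holomorphy in a parameter.
All statements are at points `z` of the strip of the support: outside the strips activities are junk and `conv` is not even additive.
-/

set_option autoImplicit false

namespace Claimed.Agent.R285.Scal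

open scoped BigOperators ENNReal NNReal
open MeasureTheory ProbabilityTheory
open Claimed.Agent.R285.RG Claimed.Agent.R285

noncomputable section

variable {G : Geom}

/-- finite products of differentiable functions on a normed space -/
theorem differentiableOn_fun_prod {E : Type} [NormedAddCommGroup E] [NormedSpace ℂ E] {ι : Type} (s : Finset ι) (f : ι → E → ℂ)
    (U : Set E) (h : ∀ i ∈ s, DifferentiableOn ℂ (f i) U) : DifferentiableOn ℂ (fun x => ∏ i ∈ s, f i x) U := by
  classical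
  induction s using Finset.induction_on with
  | empty => simpa using differentiableOn_const (1 : ℂ)
  | insert a s ha ih =>
    simp only [Finset.prod_insert ha]
    exact (h a (Finset.mem_insert_self _ _)).mul (ih fun i hi => h i (Finset.mem_insert_of_mem hi))

theorem differentiableOn_prod {E : Type} [NormedAddCommGroup E] [NormedSpace ℂ E] {ι : Type} (s : Finset ι) (f : ι → E → ℂ)
    (U : Set E) (h : ∀ i ∈ s, DifferentiableOn ℂ (f i) U) : DifferentiableOn ℂ (∏ i ∈ s, f i) U := by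
  have := differentiableOn_fun_prod s f U h
  have h2 : (∏ i ∈ s, f i) = fun x => ∏ i ∈ s, f i x := by
    ext x
    rw [Finset.prod_apply]
  rwa [h2]

theorem conv_apply (Γ : Matrix G.V G.V ℝ) (F : Fn G) (z : G.V → ℂ) : conv Γ F z = ∫ ζ, F (z + toC ζ) ∂(gauss G Γ) := rfl

/-- pointwise bound in the strip by the regulator at the real part -/
theorem enorm_strip_le (p : Par) (g : Grid G) (V : Extra g) (X : Finset g.I) (F : Fn G) {z : G.V → ℂ}
    (hz : z ∈ strip p.h0 g X) (ζ : G.V → ℝ) :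
    ‖F (z + toC ζ)‖ₑ ≤ fnSize p g V X F * ENNReal.ofReal (Wt g p.δ p.κ V X ((fun v => (z v).re) + ζ)) := by
  have h1 : z + toC ζ = toC ((fun v => (z v).re) + ζ) + Complex.I • toC (fun v => (z v).im) := by
    conv_lhs => rw [Hol.strip_decomp z]
    rw [Hol.toC_add]
    abel
  rw [h1]
  exact Hol.nnnorm_le_fnSize_mul p g V X F _ _ (by rw [Hol.tnorm_I_smul_toC]; exact hz)

theorem integrable_strip (p : Par) (g : Grid G) (V : Extra g) (X : Finset g.I) (Γ : Matrix G.V G.V ℝ) (F : Fn G)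
    (hF : Hol p.h0 g X F) (hfin : fnSize p g V X F ≠ ⊤)
    (hint : ∀ φ : G.V → ℝ, ∫⁻ ζ, ENNReal.ofReal (Wt g p.δ p.κ V X (φ + ζ)) ∂(gauss G Γ) ≠ ⊤)
    {z : G.V → ℂ} (hz : z ∈ strip p.h0 g X) : Integrable (fun ζ => F (z + toC ζ)) (gauss G Γ) := by
  refine ⟨(Hol.continuous_comp_shift hF hz).aestronglyMeasurable, ?_⟩
  unfold HasFiniteIntegral
  refine lt_of_le_of_lt (lintegral_mono fun ζ => enorm_strip_le p g V X F hz ζ) ?_
  rw [lintegral_const_mul' _ _ hfin]
  exact ENNReal.mul_lt_top hfin.lt_top (hint _).lt_top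

/-- congruence: `conv Γ F z` only depends on `F` in the strip -/
theorem conv_congr_strip {h : ℝ≥0} {g : Grid G} {X : Finset g.I} (Γ : Matrix G.V G.V ℝ) {F F' : Fn G}
    (hFF : ∀ z ∈ strip h g X, F z = F' z) {z : G.V → ℂ} (hz : z ∈ strip h g X) : conv Γ F z = conv Γ F' z := by
  rw [conv_apply, conv_apply]
  exact integral_congr_ae (Filter.Eventually.of_forall fun ζ => hFF _ (Hol.strip_add_toC hz ζ))

/-- **`conv` preserves `LocalFn`**; the collar does not grow -/
theorem localFn_conv {p : Par} {col : ℕ} {g : Grid G} (V : Extra g) {X : Finset g.I} (Γ : Matrix G.V G.V ℝ) {F : Fn G}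
    (hF : LocalFn p col g X F) (hfin : fnSize p g V X F ≠ ⊤)
    (hint : ∀ φ : G.V → ℝ, ∫⁻ ζ, ENNReal.ofReal (Wt g p.δ p.κ V X (φ + ζ)) ∂(gauss G Γ) ≠ ⊤) :
    LocalFn p col g X (conv Γ F) where
  hol := Hol.hol_conv p g V X Γ F hF.hol hfin hint
  loc := fun z hz z' hz' hzz => by
    rw [conv_apply, conv_apply]
    refine integral_congr_ae (Filter.Eventually.of_forall fun ζ => ?_)
    refine hF.loc _ (Hol.strip_add_toC hz ζ) _ (Hol.strip_add_toC hz' ζ) fun v hv => ?_
    rw [Pi.add_apply, Pi.add_apply, hzz v hv]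
  per := fun z hz => by
    rw [conv_apply, conv_apply]
    refine integral_congr_ae (Filter.Eventually.of_forall fun ζ => ?_)
    have h1 : (fun v => z v + (p.ω : ℂ)) + toC ζ = fun v => (z + toC ζ) v + (p.ω : ℂ) := by
      ext v
      simp only [Pi.add_apply]
      ring
    show F ((fun v => z v + (p.ω : ℂ)) + toC ζ) = F (z + toC ζ)
    rw [h1]
    exact hF.per _ (Hol.strip_add_toC hz ζ)

/-! ## products over the components of a fine set -/

section comps

variable {p : Par} {g : Grid G} {V : Extra g} {R : ℕ} {K : Act g}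

theorem fnSize_prod_comps_ne_top (hg : g.Ok) (hR : max 5 V.sep ≤ R) (hfin : ∀ X, fnSize p g V X (K X) ≠ ⊤) (W : Finset g.I) :
    fnSize p g V W (∏ X ∈ g.comps R W, K X) ≠ ⊤ :=
  ne_top_of_le_ne_top (ENNReal.prod_ne_top fun X _ => hfin X) (fnSize_prod_comps_le p g hg V hR W K)

theorem hol_prod_comps (hK : ∀ X, Hol p.h0 g X (K X)) (W : Finset g.I) : Hol p.h0 g W (∏ X ∈ g.comps R W, K X) := by
  unfold Hol
  exact differentiableOn_prod _ _ _ fun X hX => (hK X).mono (strip_anti _ g (Alg.comps_subset hX))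

theorem integrable_prod_comps (hg : g.Ok) (hR : max 5 V.sep ≤ R) (Γ : Matrix G.V G.V ℝ) (hK : ∀ X, Hol p.h0 g X (K X))
    (hfin : ∀ X, fnSize p g V X (K X) ≠ ⊤) (W : Finset g.I)
    (hint : ∀ φ : G.V → ℝ, ∫⁻ ζ, ENNReal.ofReal (Wt g p.δ p.κ V W (φ + ζ)) ∂(gauss G Γ) ≠ ⊤)
    {z : G.V → ℂ} (hz : z ∈ strip p.h0 g W) :
    Integrable (fun ζ => (∏ X ∈ g.comps R W, K X) (z + toC ζ)) (gauss G Γ) :=
  integrable_strip p g V W Γ _ (hol_prod_comps hK W) (fnSize_prod_comps_ne_top hg hR hfin W) hint hz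

/-- first hypothesis of `exact_step1`, inside the strip of the whole grid -/
theorem conv_ZA_strip (hg : g.Ok) (hR : max 5 V.sep ≤ R) (Γ : Matrix G.V G.V ℝ) (hK : ∀ X, Hol p.h0 g X (K X))
    (hfin : ∀ X, fnSize p g V X (K X) ≠ ⊤)
    (hint : ∀ (W : Finset g.I) (φ : G.V → ℝ), ∫⁻ ζ, ENNReal.ofReal (Wt g p.δ p.κ V W (φ + ζ)) ∂(gauss G Γ) ≠ ⊤)
    {z : G.V → ℂ} (hz : z ∈ strip p.h0 g Finset.univ) :
    conv Γ (ZA g R K) z = ∑ W : Finset g.I, conv Γ (∏ X ∈ g.comps R W, K X) z := by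
  simp only [conv_apply, ZA, Finset.sum_apply]
  exact integral_finsetSum _ fun W _ =>
    integrable_prod_comps hg hR Γ hK hfin W (hint W) (strip_anti _ g (Finset.subset_univ W) hz)

end comps

/-! ## holomorphy in a parameter -/

/-- **holomorphy of `conv Γ (F s) z` in a parameter `s`**, for a family which is uniformly bounded in the norm and pointwise holomorphic.
(The regulator need not be measurable: the dominating function is the supremum of the family, which is lower semicontinuous.) -/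
theorem conv_hol_param {E : Type} [NormedAddCommGroup E] [NormedSpace ℂ E] [FiniteDimensional ℂ E] (U : Set E) (hU : IsOpen U)
    (p : Par) (g : Grid G) (V : Extra g) (X : Finset g.I) (Γ : Matrix G.V G.V ℝ) (F : E → Fn G)
    (hF : ∀ s ∈ U, Hol p.h0 g X (F s)) (M : ℝ≥0∞) (hM : M ≠ ⊤) (hbd : ∀ s ∈ U, fnSize p g V X (F s) ≤ M)
    (hint : ∀ φ : G.V → ℝ, ∫⁻ ζ, ENNReal.ofReal (Wt g p.δ p.κ V X (φ + ζ)) ∂(gauss G Γ) ≠ ⊤)
    (hs : ∀ z ∈ strip p.h0 g X, DifferentiableOn ℂ (fun s => F s z) U) {z : G.V → ℂ} (hz : z ∈ strip p.h0 g X) :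
    DifferentiableOn ℂ (fun s => conv Γ (F s) z) U := by
  simp only [conv_apply]
  set b' : (G.V → ℝ) → ℝ≥0∞ := fun ζ => ⨆ s : U, ‖F s.1 (z + toC ζ)‖ₑ with hb'
  have hlsc : LowerSemicontinuous b' :=
    lowerSemicontinuous_iSup fun s => (Hol.continuous_comp_shift (hF s.1 s.2) hz).enorm.lowerSemicontinuous
  have hle : ∀ ζ, b' ζ ≤ M * ENNReal.ofReal (Wt g p.δ p.κ V X ((fun v => (z v).re) + ζ)) := fun ζ =>
    iSup_le fun s => (enorm_strip_le p g V X (F s.1) hz ζ).trans (mul_le_mul' (hbd s.1 s.2) le_rfl)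
  have hfinb : ∀ ζ, b' ζ ≠ ⊤ := fun ζ => ne_top_of_le_ne_top (ENNReal.mul_ne_top hM ENNReal.ofReal_ne_top) (hle ζ)
  have hintb : ∫⁻ ζ, b' ζ ∂(gauss G Γ) ≠ ⊤ := by
    refine ne_top_of_le_ne_top ?_ (lintegral_mono hle)
    rw [lintegral_const_mul' _ _ hM]
    exact ENNReal.mul_ne_top hM (hint _)
  refine Hol.hol_integral (gauss G Γ) U hU (fun s ζ => F s (z + toC ζ)) (fun ζ => hs _ (Hol.strip_add_toC hz ζ))
    (fun s hs' => (Hol.continuous_comp_shift (hF s hs') hz).aestronglyMeasurable) (fun s hs' => ?_)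
  obtain ⟨ε, hε, hball⟩ := Metric.isOpen_iff.1 hU s hs'
  refine ⟨ε, hε, fun ζ => (b' ζ).toReal, integrable_toReal_of_lintegral_ne_top hlsc.measurable.aemeasurable hintb,
    fun s' hs'' ζ => ?_⟩
  have h1 : ‖F s' (z + toC ζ)‖ₑ ≤ b' ζ := le_iSup (fun s : U => ‖F s.1 (z + toC ζ)‖ₑ) ⟨s', hball hs''⟩
  have h2 := ENNReal.toReal_mono (hfinb ζ) h1
  simpa using h2

end

end Claimed.Agent.R285.Scal
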