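import Claimed.Agent.R285.Scal.Ok

/-!
# ROW 285, package PK-SCAL, file 10: the Lipschitz form of the quadratic bound, by the Schwarz lemma along complex lines     (helper218)

`N (K, d) = Kprime - Klin`.  Given the quadratic bound `‖N (K, d)‖ ≤ C ε²` on the ball of radius `ε₀` (`QuadAt`), the function `t ↦ N (K₂ + t (K - K₂), d₂ + t (d - d₂)) (Y, z)` is holomorphic
(`Kprime_hol`, `Klin_hol`) and bounded by `4 C ε²` on the disc `|t| < ε / D`, `D = ‖K - K₂‖ + ‖d - d₂‖`; the Schwarz lemma gives `|N (1) - N (0)| ≤ 8 C ε D`.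
-/

set_option autoImplicit false

namespace Claimed.Agent.R285.Scal

open scoped BigOperators ENNReal NNReal
open MeasureTheory ProbabilityTheory
open Claimed.Agent.R285.RG Claimed.Agent.R285

noncomputable section

variable {G : Geom}

/-! ## real form of the norm bound -/

theorem actNorm_le_coe_iff (p : Par) (hA : 0 < p.A) (g : Grid G) (V : Extra g) (K : Act g) (c : ℝ≥0) :
    actNorm p g V K ≤ c ↔ ∀ (X : Finset g.I) (φ : G.V → ℝ) (f : G.V → ℂ), tnorm g X f < p.h0 →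
      p.A ^ X.card * ‖K X (toC φ + f)‖ ≤ c * Wt g p.δ p.κ V X φ := by
  rw [actNorm_le_iff']
  refine forall_congr' fun X => forall_congr' fun φ => forall_congr' fun f => imp_congr_right fun _ => ?_
  have h1 : ENNReal.ofReal (p.A ^ X.card) * (‖K X (toC φ + f)‖₊ : ℝ≥0∞)
      = ENNReal.ofReal (p.A ^ X.card * ‖K X (toC φ + f)‖) := by
    rw [ENNReal.ofReal_mul (pow_pos hA _).le, ofReal_norm]
    rfl
  have h2 : (c : ℝ≥0∞) * ENNReal.ofReal (Wt g p.δ p.κ V X φ) = ENNReal.ofReal (c * Wt g p.δ p.κ V X φ) := by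
    rw [ENNReal.ofReal_mul c.coe_nonneg, ENNReal.ofReal_coe_nnreal]
  rw [h1, h2, ENNReal.ofReal_le_ofReal_iff (mul_nonneg c.coe_nonneg (Hol.Wt_pos _ _ _ _ _ _).le)]

/-! ## affine lines of data -/

/-- the line through two activities -/
def lineK {g : Grid G} (K K₂ : Act g) (t : ℂ) : Act g := K₂ + t • (K - K₂)

/-- the line through two designated data -/
def lineD {g' : Grid G} (d d₂ : Desig g' (Fn G)) (t : ℂ) : Desig g' (Fn G) :=
  ⟨d₂.F + t • (d.F - d₂.F), d₂.a + t • (d.a - d₂.a)⟩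

theorem lineK_one {g : Grid G} (K K₂ : Act g) : lineK K K₂ 1 = K := by simp [lineK]

theorem lineK_zero {g : Grid G} (K K₂ : Act g) : lineK K K₂ 0 = K₂ := by simp [lineK]

theorem lineD_one {g' : Grid G} (d d₂ : Desig g' (Fn G)) : lineD d d₂ 1 = d := by simp [lineD]

theorem lineD_zero {g' : Grid G} (d d₂ : Desig g' (Fn G)) : lineD d d₂ 0 = d₂ := by simp [lineD]

theorem lineK_ok {p : Par} {col R : ℕ} {g : Grid G} {K K₂ : Act g} (h : Act.Ok p col R K) (h₂ : Act.Ok p col R K₂) (t : ℂ) :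
    Act.Ok p col R (lineK K K₂ t) := actOk_add h₂ (actOk_smul t (actOk_sub h h₂))

theorem lineK_norm_le (p : Par) (g : Grid G) (V : Extra g) (K K₂ : Act g) (t : ℂ) :
    actNorm p g V (lineK K K₂ t) ≤ actNorm p g V K₂ + ‖t‖₊ * actNorm p g V (K - K₂) :=
  (actNorm_add_le p g V _ _).trans (add_le_add le_rfl (actNorm_smul_le p g V t _))

theorem lineD_small {r : ℕ} {g' : Grid G} {d d₂ : Desig g' (Fn G)} (h : d.Small r g') (h₂ : d₂.Small r g') (t : ℂ) :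
    (lineD d d₂ t).Small r g' := by
  intro Y b hYb
  show (d₂.F + t • (d.F - d₂.F)) Y b = 0
  simp [h Y b hYb, h₂ Y b hYb]

theorem lineD_size_le (p : Par) {g' : Grid G} (V : Extra g') (d d₂ : Desig g' (Fn G)) (t : ℂ) :
    (lineD d d₂ t).size p V ≤ d₂.size p V + ‖t‖₊ * Desig.size p V ⟨d.F - d₂.F, d.a - d₂.a⟩ := by
  unfold Desig.size
  refine iSup_le fun b => ?_
  have h1 : ∀ Y : Finset g'.I, fnSize p g' V {b} ((lineD d d₂ t).F Y b)
      ≤ fnSize p g' V {b} (d₂.F Y b) + ‖t‖₊ * fnSize p g' V {b} ((d.F - d₂.F) Y b) := fun Y =>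
    (fnSize_add_le p g' V {b} _ _).trans (add_le_add le_rfl (fnSize_smul_le p g' V {b} t _))
  have h2 : (‖(lineD d d₂ t).a b‖₊ : ℝ≥0∞) ≤ ‖d₂.a b‖₊ + ‖t‖₊ * ‖(d.a - d₂.a) b‖₊ := by
    rw [← ENNReal.coe_mul, ← ENNReal.coe_add, ENNReal.coe_le_coe, ← nnnorm_mul]
    exact nnnorm_add_le _ _
  calc (∑ Y : Finset g'.I, fnSize p g' V {b} ((lineD d d₂ t).F Y b)) + (‖(lineD d d₂ t).a b‖₊ : ℝ≥0∞)
      ≤ (∑ Y : Finset g'.I, (fnSize p g' V {b} (d₂.F Y b) + ‖t‖₊ * fnSize p g' V {b} ((d.F - d₂.F) Y b)))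
          + (‖d₂.a b‖₊ + ‖t‖₊ * ‖(d.a - d₂.a) b‖₊) := add_le_add (Finset.sum_le_sum fun Y _ => h1 Y) h2
    _ = ((∑ Y : Finset g'.I, fnSize p g' V {b} (d₂.F Y b)) + ‖d₂.a b‖₊)
          + ‖t‖₊ * ((∑ Y : Finset g'.I, fnSize p g' V {b} ((d.F - d₂.F) Y b)) + ‖(d.a - d₂.a) b‖₊) := by
        rw [Finset.sum_add_distrib, ← Finset.mul_sum, mul_add]
        ring
    _ ≤ _ := add_le_add
        (le_iSup (fun b : g'.I => (∑ Y : Finset g'.I, fnSize p g' V {b} (d₂.F Y b)) + (‖d₂.a b‖₊ : ℝ≥0∞)) b)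
        (mul_le_mul' le_rfl (le_iSup (fun b : g'.I =>
          (∑ Y : Finset g'.I, fnSize p g' V {b} ((d.F - d₂.F) Y b)) + (‖(d.a - d₂.a) b‖₊ : ℝ≥0∞)) b))

/-! ## the Schwarz lemma -/

theorem schwarz_line (gf : ℂ → ℂ) (T M : ℝ) (hT : 1 < T) (hd : DifferentiableOn ℂ gf (Metric.ball 0 T))
    (hb : ∀ t ∈ Metric.ball (0 : ℂ) T, ‖gf t‖ ≤ M) : ‖gf 1 - gf 0‖ ≤ 2 * M / T := by
  have h0 : (0 : ℂ) ∈ Metric.ball (0 : ℂ) T := Metric.mem_ball_self (by linarith)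
  have h1 : (1 : ℂ) ∈ Metric.ball (0 : ℂ) T := by simpa using hT
  have hm : Set.MapsTo gf (Metric.ball 0 T) (Metric.closedBall (gf 0) (2 * M)) := by
    intro t ht
    rw [Metric.mem_closedBall, dist_eq_norm]
    calc ‖gf t - gf 0‖ ≤ ‖gf t‖ + ‖gf 0‖ := norm_sub_le _ _
      _ ≤ M + M := add_le_add (hb t ht) (hb 0 h0)
      _ = 2 * M := by ring
  have := Complex.dist_le_div_mul_dist_of_mapsTo_ball hd hm h1
  simpa [dist_eq_norm] using this

/-! ## the Lipschitz bound -/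

variable {D0 ℓ : ℕ} (P : Pair G D0 ℓ) (Γ : Matrix G.V G.V ℝ) (Vf : Extra P.g) (Vc : Extra P.g')

/-- the nonlinear part of the map -/
def Nl (r R : ℕ) (K : Act P.g) (d : Desig P.g' (Fn G)) : Act P.g' := Kprime P r R (conv Γ) K d - Klin P R (conv Γ) K d

/-- the quadratic bound for one retained pair, as a hypothesis -/
def QuadAt (p : Par) (r R : ℕ) (Cd C ε0 : ℝ≥0) : Prop :=
  ∀ (K : Act P.g) (d : Desig P.g' (Fn G)), d.Small r P.g' →
    ∀ ε : ℝ≥0, ε ≤ ε0 → actNorm p P.g Vf K ≤ ε → d.size p Vc ≤ Cd * ε → actNorm p P.g' Vc (Nl P Γ r R K d) ≤ C * ε ^ 2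

variable {P Γ Vf Vc}

theorem lipschitz_aux {p : Par} (hA : 0 < p.A) {col r R n0 : ℕ} {cst : ℝ≥0} (hR : max 5 Vf.sep ≤ R)
    (hreg : RegStable R n0 cst p.δ p.κ P Vf Vc Γ) {Cd C ε0 : ℝ≥0} (hq : QuadAt P Γ Vf Vc p r R (Cd + 1) C ε0)
    {ε : ℝ≥0} (hε : 2 * ε ≤ ε0) (hε1 : (Cd + 1) * ε < 1) {K K₂ : Act P.g} {d d₂ : Desig P.g' (Fn G)}
    (hK : Act.Ok p col R K) (hK₂ : Act.Ok p col R K₂) (hd : d.Ok p col r) (hd₂ : d₂.Ok p col r)
    (hKε : actNorm p P.g Vf K ≤ ε) (hK₂ε : actNorm p P.g Vf K₂ ≤ ε) (hdε : d.size p Vc ≤ Cd * ε) (hd₂ε : d₂.size p Vc ≤ Cd * ε)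
    {D' : ℝ≥0} (hD' : 0 < D')
    (hD : actNorm p P.g Vf (K - K₂) + Desig.size p Vc ⟨d.F - d₂.F, d.a - d₂.a⟩ ≤ D') :
    actNorm p P.g' Vc (Nl P Γ r R K d - Nl P Γ r R K₂ d₂) ≤ ((8 * C * ε * D' : ℝ≥0) : ℝ≥0∞) := by
  have hCd : ∀ x : ℝ≥0, (Cd : ℝ≥0∞) * x ≤ ((Cd + 1 : ℝ≥0) : ℝ≥0∞) * x := fun x => by
    gcongr
    exact_mod_cast le_self_add
  rcases le_or_gt ε D' with hcase | hcase
  · -- trivial case
    have hεε0 : ε ≤ ε0 := le_trans (by nth_rewrite 1 [← one_mul ε]; gcongr; norm_num) hε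
    have h1 := hq K d hd.small ε hεε0 hKε (hdε.trans (hCd ε))
    have h2 := hq K₂ d₂ hd₂.small ε hεε0 hK₂ε (hd₂ε.trans (hCd ε))
    refine (actNorm_sub_le p P.g' Vc _ _).trans ((add_le_add h1 h2).trans ?_)
    have h3 : C * ε ^ 2 + C * ε ^ 2 ≤ 8 * C * ε * D' := by
      calc C * ε ^ 2 + C * ε ^ 2 = 2 * C * ε * ε := by ring
        _ ≤ 8 * C * ε * D' := by gcongr; norm_num
    exact_mod_cast h3
  · -- Schwarz
    have hε0 : 0 < ε := hD'.trans hcase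
    have hDK : actNorm p P.g Vf (K - K₂) ≤ D' := le_trans le_self_add hD
    have hDd : Desig.size p Vc ⟨d.F - d₂.F, d.a - d₂.a⟩ ≤ D' := le_trans le_add_self hD
    set T : ℝ := (ε : ℝ) / D' with hT
    have hD'r : (0 : ℝ) < D' := by exact_mod_cast hD'
    have hT1 : 1 < T := by
      rw [hT, one_lt_div hD'r]
      exact_mod_cast hcase
    have htD : ∀ t ∈ Metric.ball (0 : ℂ) T, (‖t‖₊ : ℝ≥0∞) * D' ≤ ε := by
      intro t ht
      have h1 : ‖t‖ < T := by simpa using ht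
      rw [hT, lt_div_iff₀ hD'r] at h1
      have h2 : ‖t‖₊ * D' ≤ ε := by
        rw [← NNReal.coe_le_coe]
        push_cast
        exact h1.le
      exact_mod_cast h2
    have hKt : ∀ t ∈ Metric.ball (0 : ℂ) T, actNorm p P.g Vf (lineK K K₂ t) ≤ ((2 * ε : ℝ≥0) : ℝ≥0∞) := by
      intro t ht
      refine (lineK_norm_le p P.g Vf K K₂ t).trans ?_
      calc actNorm p P.g Vf K₂ + ‖t‖₊ * actNorm p P.g Vf (K - K₂) ≤ ε + ‖t‖₊ * D' := by gcongr
        _ ≤ ε + ε := by gcongr; exact htD t ht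
        _ = ((2 * ε : ℝ≥0) : ℝ≥0∞) := by push_cast; ring
    have hdt' : ∀ t ∈ Metric.ball (0 : ℂ) T, (lineD d d₂ t).size p Vc ≤ (((Cd + 1) * ε : ℝ≥0) : ℝ≥0∞) := by
      intro t ht
      refine (lineD_size_le p Vc d d₂ t).trans ?_
      calc d₂.size p Vc + ‖t‖₊ * Desig.size p Vc ⟨d.F - d₂.F, d.a - d₂.a⟩ ≤ Cd * ε + ‖t‖₊ * D' := by gcongr
        _ ≤ Cd * ε + ε := by gcongr; exact htD t ht
        _ = (((Cd + 1) * ε : ℝ≥0) : ℝ≥0∞) := by push_cast; ring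
    have hdt : ∀ t ∈ Metric.ball (0 : ℂ) T,
        (lineD d d₂ t).size p Vc ≤ ((Cd + 1 : ℝ≥0) : ℝ≥0∞) * ((2 * ε : ℝ≥0) : ℝ≥0∞) := by
      intro t ht
      refine (hdt' t ht).trans ?_
      have : (Cd + 1) * ε ≤ (Cd + 1) * (2 * ε) := by
        gcongr
        nth_rewrite 1 [← one_mul ε]
        gcongr
        norm_num
      exact_mod_cast this
    have hNt : ∀ t ∈ Metric.ball (0 : ℂ) T,
        actNorm p P.g' Vc (Nl P Γ r R (lineK K K₂ t) (lineD d d₂ t)) ≤ ((C * (2 * ε) ^ 2 : ℝ≥0) : ℝ≥0∞) := by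
      intro t ht
      have := hq (lineK K K₂ t) (lineD d d₂ t) (lineD_small hd.small hd₂.small t) (2 * ε) hε
        (hKt t ht) (hdt t ht)
      exact_mod_cast this
    have hne : ∀ t ∈ Metric.ball (0 : ℂ) T, ∀ b, 1 + (lineD d d₂ t).a b ≠ 0 := by
      intro t ht b h0
      have h1 : (‖(lineD d d₂ t).a b‖₊ : ℝ≥0∞) ≤ (((Cd + 1) * ε : ℝ≥0) : ℝ≥0∞) :=
        (nnnorm_a_le_size p Vc _ b).trans (hdt' t ht)
      have h2 : ‖(lineD d d₂ t).a b‖₊ < 1 := lt_of_le_of_lt (by exact_mod_cast h1) hε1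
      have h3 : (lineD d d₂ t).a b = -1 := by linear_combination h0
      rw [h3] at h2
      simp at h2
    rw [actNorm_le_coe_iff p hA]
    intro Y φ f hf
    have hz : toC φ + f ∈ strip p.h0 P.g' Y := Hol.toC_add_mem_strip φ hf
    set z := toC φ + f with hzdef
    set gf : ℂ → ℂ := fun t => Nl P Γ r R (lineK K K₂ t) (lineD d d₂ t) Y z with hgf
    have ha : 0 < p.A ^ Y.card := pow_pos hA _
    have hw : 0 < Wt P.g' p.δ p.κ Vc Y φ := Hol.Wt_pos _ _ _ _ _ _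
    have hfinK₂ := fnSize_ne_top p hA P.g Vf K₂ (ne_top_of_le_ne_top ENNReal.coe_ne_top hK₂ε)
    have hfinD := fnSize_ne_top p hA P.g Vf (K - K₂) (ne_top_of_le_ne_top ENNReal.coe_ne_top hDK)
    have hbdK : ∀ t ∈ Metric.ball (0 : ℂ) T, ∀ X, fnSize p P.g Vf X (lineK K K₂ t X)
        ≤ fnSize p P.g Vf X (K₂ X) + ENNReal.ofReal T * fnSize p P.g Vf X ((K - K₂) X) := by
      intro t ht X
      refine (fnSize_add_le p P.g Vf X _ _).trans (add_le_add le_rfl ((fnSize_smul_le p P.g Vf X t _).trans ?_))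
      gcongr
      have h1 : ‖t‖ < T := by simpa using ht
      rw [← enorm_eq_nnnorm, ← ofReal_norm]
      exact ENNReal.ofReal_le_ofReal h1.le
    have hKs : ∀ X, ∀ w ∈ strip p.h0 P.g X, DifferentiableOn ℂ (fun t => lineK K K₂ t X w) (Metric.ball (0 : ℂ) T) := by
      intro X w _
      have : (fun t : ℂ => lineK K K₂ t X w) = fun t => K₂ X w + t * (K X w - K₂ X w) := by
        ext t
        simp [lineK]
      rw [this]
      fun_prop
    have hFs : ∀ Y' b, ∀ w ∈ strip p.h0 P.g' {b},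
        DifferentiableOn ℂ (fun t => (lineD d d₂ t).F Y' b w) (Metric.ball (0 : ℂ) T) := by
      intro Y' b w _
      have : (fun t : ℂ => (lineD d d₂ t).F Y' b w) = fun t => d₂.F Y' b w + t * (d.F Y' b w - d₂.F Y' b w) := by
        ext t
        simp [lineD]
      rw [this]
      fun_prop
    have has : ∀ b, DifferentiableOn ℂ (fun t => (lineD d d₂ t).a b) (Metric.ball (0 : ℂ) T) := by
      intro b
      have : (fun t : ℂ => (lineD d d₂ t).a b) = fun t => d₂.a b + t * (d.a b - d₂.a b) := by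
        ext t
        simp [lineD]
      rw [this]
      fun_prop
    have hdiff : DifferentiableOn ℂ gf (Metric.ball 0 T) := by
      have e1 := Kprime_hol P Γ Vf Vc (Metric.ball (0 : ℂ) T) Metric.isOpen_ball p r R n0 cst hR hreg (lineK K K₂) (lineD d d₂)
        (fun t _ X => ((lineK_ok hK hK₂ t).fn X).hol) _
        (fun X => ENNReal.add_ne_top.2 ⟨hfinK₂ X, ENNReal.mul_ne_top ENNReal.ofReal_ne_top (hfinD X)⟩) hbdK hKs hFs has hne Y z hz
      have e2 := Klin_hol P Γ Vf Vc (Metric.ball (0 : ℂ) T) Metric.isOpen_ball p R n0 cst hreg (lineK K K₂) (lineD d d₂)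
        (fun t _ X => ((lineK_ok hK hK₂ t).fn X).hol) _
        (fun X => ENNReal.add_ne_top.2 ⟨hfinK₂ X, ENNReal.mul_ne_top ENNReal.ofReal_ne_top (hfinD X)⟩) hbdK hKs hFs has Y z hz
      exact e1.sub e2
    have hb : ∀ t ∈ Metric.ball (0 : ℂ) T, ‖gf t‖ ≤ (C * (2 * ε) ^ 2 : ℝ≥0) * Wt P.g' p.δ p.κ Vc Y φ / p.A ^ Y.card := by
      intro t ht
      rw [le_div_iff₀ ha, mul_comm]
      exact (actNorm_le_coe_iff p hA P.g' Vc _ _).1 (hNt t ht) Y φ f hf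
    have key := schwarz_line gf T _ hT1 hdiff hb
    have e1 : gf 1 - gf 0 = (Nl P Γ r R K d - Nl P Γ r R K₂ d₂) Y z := by
      simp only [hgf, lineK_one, lineK_zero, lineD_one, lineD_zero, Pi.sub_apply]
    rw [e1] at key
    have hεr : (0 : ℝ) < ε := by exact_mod_cast hε0
    calc p.A ^ Y.card * ‖(Nl P Γ r R K d - Nl P Γ r R K₂ d₂) Y z‖
        ≤ p.A ^ Y.card * (2 * ((C * (2 * ε) ^ 2 : ℝ≥0) * Wt P.g' p.δ p.κ Vc Y φ / p.A ^ Y.card) / T) :=
          mul_le_mul_of_nonneg_left key ha.le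
      _ = ((8 * C * ε * D' : ℝ≥0) : ℝ) * Wt P.g' p.δ p.κ Vc Y φ := by
          rw [hT]
          push_cast
          field_simp
          ring

end

end Claimed.Agent.R285.Scal
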