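import Claimed.Agent.R285.Scal.Conv
import Claimed.Agent.R285.Scal.Cls

/-!
# ROW 285, package PK-SCAL, file 6: three instances of the closure principle     (helper218)

* `Kprime_ok`, `Klin_ok`       : the map preserves admissibility (period, locality, analyticity; the collar does not grow) = `B4.Kprime_ok`;
* `Kprime_congr`, `Klin_congr` : the values of `K'` inside the strips only depend on the values of the data inside the strips (NO hypothesis);
* `Kprime_hol`, `Klin_hol`     : pointwise holomorphic, uniformly bounded families of data give pointwise holomorphic `K'` (Gateaux holomorphy, wanted by `B8.WeakOK.hol`).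
-/

set_option autoImplicit false

namespace Claimed.Agent.R285.Scal

open scoped BigOperators ENNReal NNReal
open MeasureTheory ProbabilityTheory
open Claimed.Agent.R285.RG Claimed.Agent.R285

noncomputable section

variable {G : Geom}

/-- the class `LocalFn` -/
def clsLocal (p : Par) (col : ℕ) (g' : Grid G) : FamCls Unit (Fn G) g' where
  mem := fun X x => LocalFn p col g' X (x ())
  sc := fun _ => True
  mono := fun h hx => localFn_mono h hx
  zero := fun X => localFn_zero p col g' X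
  one := fun X => localFn_one p col g' X
  add := fun hx hy => localFn_add hx hy
  sub := fun hx hy => localFn_sub hx hy
  mul := fun hx hy => localFn_mul hx hy
  smul := fun _ hx => localFn_smul _ hx
  sc_one := trivial
  sc_mul := fun _ _ => trivial

/-- equality inside the strips -/
def clsEq (h0 : ℝ≥0) (g' : Grid G) : FamCls Bool (Fn G) g' where
  mem := fun X x => ∀ z ∈ strip h0 g' X, x true z = x false z
  sc := fun c => c true = c false
  mono := fun h hx z hz => hx z (strip_anti _ g' h hz)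
  zero := fun _ _ _ => rfl
  one := fun _ _ _ => rfl
  add := fun hx hy z hz => by simp only [Pi.add_apply, hx z hz, hy z hz]
  sub := fun hx hy z hz => by simp only [Pi.sub_apply, hx z hz, hy z hz]
  mul := fun hx hy z hz => by simp only [Pi.mul_apply, hx z hz, hy z hz]
  smul := fun hc hx z hz => by simp only [Pi.smul_apply, hx z hz, hc]
  sc_one := rfl
  sc_mul := fun hc hc' => by simp only [hc, hc']

/-- pointwise holomorphy in a parameter -/
def clsDiff {E : Type} [NormedAddCommGroup E] [NormedSpace ℂ E] (U : Set E) (h0 : ℝ≥0) (g' : Grid G) : FamCls E (Fn G) g' where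
  mem := fun X x => ∀ z ∈ strip h0 g' X, DifferentiableOn ℂ (fun s => x s z) U
  sc := fun c => DifferentiableOn ℂ c U
  mono := fun h hx z hz => hx z (strip_anti _ g' h hz)
  zero := fun _ _ _ => differentiableOn_const 0
  one := fun _ _ _ => differentiableOn_const 1
  add := fun hx hy z hz => (hx z hz).add (hy z hz)
  sub := fun hx hy z hz => (hx z hz).sub (hy z hz)
  mul := fun hx hy z hz => (hx z hz).mul (hy z hz)
  smul := fun hc hx z hz => hc.smul (hx z hz)
  sc_one := differentiableOn_const 1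
  sc_mul := fun hc hc' => hc.mul hc'

variable {D0 ℓ : ℕ} (P : Pair G D0 ℓ) (Γ : Matrix G.V G.V ℝ) (Vf : Extra P.g) (Vc : Extra P.g')

/-! ## admissibility -/

/-- the integrated product of a compatible family is local on the closure -/
theorem localFn_conv_prod (p : Par) (col R n0 : ℕ) (cst : ℝ≥0) (hR : max 5 Vf.sep ≤ R) (K : Act P.g)
    (hK : ∀ X, LocalFn p col P.g X (K X)) (hfin : ∀ X, fnSize p P.g Vf X (K X) ≠ ⊤)
    (hreg : RegStable R n0 cst p.δ p.κ P Vf Vc Γ) (V : Finset P.g.I) :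
    LocalFn p col P.g' (P.N.cl V) (conv Γ (∏ X ∈ P.g.comps R V, K X)) :=
  localFn_coarse P (Finset.Subset.refl _) (localFn_conv Vf Γ (localFn_prod_comps hK V)
    (fnSize_prod_comps_ne_top P.ok hR hfin V) (lintegral_Wt_ne_top ENNReal.coe_ne_top hreg V))

theorem localFn_conv_one (p : Par) (col R n0 : ℕ) (cst : ℝ≥0) (K : Act P.g)
    (hK : ∀ X, LocalFn p col P.g X (K X)) (hfin : ∀ X, fnSize p P.g Vf X (K X) ≠ ⊤)
    (hreg : RegStable R n0 cst p.δ p.κ P Vf Vc Γ) (X : Finset P.g.I) :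
    LocalFn p col P.g' (P.N.cl X) (conv Γ (K X)) :=
  localFn_coarse P (Finset.Subset.refl _) (localFn_conv Vf Γ (hK X) (hfin X) (lintegral_Wt_ne_top ENNReal.coe_ne_top hreg X))

/-- **the map preserves admissibility** (period, locality, analyticity); the collar does not grow -/
theorem Kprime_ok' (p : Par) (col r R n0 : ℕ) (cst : ℝ≥0) (hR : max 5 Vf.sep ≤ R) (K : Act P.g)
    (hK : ∀ X, LocalFn p col P.g X (K X)) (hfin : ∀ X, fnSize p P.g Vf X (K X) ≠ ⊤)
    (hreg : RegStable R n0 cst p.δ p.κ P Vf Vc Γ) (d : Desig P.g' (Fn G)) (hd : ∀ Y b, LocalFn p col P.g' {b} (d.F Y b)) :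
    Act.Ok p col R (Kprime P r R (conv Γ) K d) where
  fn := fun Y => (clsLocal p col P.g').kprime r R (fun _ => conv Γ) (fun _ => K) (fun _ => d)
    (fun V => localFn_conv_prod P Γ Vf Vc p col R n0 cst hR K hK hfin hreg V) hd (fun _ => trivial) Y
  poly := fun Y hY => by
    unfold Kprime Kext
    rw [if_neg hY]

theorem Klin_ok' (p : Par) (col R n0 : ℕ) (cst : ℝ≥0) (K : Act P.g)
    (hK : ∀ X, LocalFn p col P.g X (K X)) (hfin : ∀ X, fnSize p P.g Vf X (K X) ≠ ⊤)
    (hreg : RegStable R n0 cst p.δ p.κ P Vf Vc Γ) (d : Desig P.g' (Fn G)) (hd : ∀ Y b, LocalFn p col P.g' {b} (d.F Y b)) :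
    Act.Ok p col R (Klin P R (conv Γ) K d) where
  fn := fun Y => (clsLocal p col P.g').klin R (fun _ => conv Γ) (fun _ => K) (fun _ => d)
    (fun X _ => localFn_conv_one P Γ Vf Vc p col R n0 cst K hK hfin hreg X) hd (fun _ => trivial) Y
  poly := fun Y hY => by
    unfold Klin
    rw [if_neg hY]

/-- = `B4.Kprime_ok` with the two new hypotheses `0 < p.A`, `max 5 Vf.sep ≤ R` (and without the superfluous ones) -/
theorem Kprime_ok (p : Par) (hA : 0 < p.A) (col r R n0 : ℕ) (cst : ℝ≥0) (hR : max 5 Vf.sep ≤ R) (K : Act P.g)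
    (hK : Act.Ok p col R K) (hfin : actNorm p P.g Vf K ≠ ⊤) (hreg : RegStable R n0 cst p.δ p.κ P Vf Vc Γ)
    (d : Desig P.g' (Fn G)) (hd : d.Ok p col r) : Act.Ok p col R (Kprime P r R (conv Γ) K d) :=
  Kprime_ok' P Γ Vf Vc p col r R n0 cst hR K hK.fn (fnSize_ne_top p hA P.g Vf K hfin) hreg d hd.fn

theorem Klin_ok (p : Par) (hA : 0 < p.A) (col r R n0 : ℕ) (cst : ℝ≥0) (K : Act P.g)
    (hK : Act.Ok p col R K) (hfin : actNorm p P.g Vf K ≠ ⊤) (hreg : RegStable R n0 cst p.δ p.κ P Vf Vc Γ)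
    (d : Desig P.g' (Fn G)) (hd : d.Ok p col r) : Act.Ok p col R (Klin P R (conv Γ) K d) :=
  Klin_ok' P Γ Vf Vc p col R n0 cst K hK.fn (fnSize_ne_top p hA P.g Vf K hfin) hreg d hd.fn

/-! ## congruence -/

/-- **congruence**: inside the strips `K'` only depends on the data inside the strips -/
theorem Kprime_congr (h0 : ℝ≥0) (r R : ℕ) (K K₂ : Act P.g) (d d₂ : Desig P.g' (Fn G))
    (hK : ∀ X, ∀ z ∈ strip h0 P.g X, K X z = K₂ X z) (hF : ∀ Y b, ∀ z ∈ strip h0 P.g' {b}, d.F Y b z = d₂.F Y b z)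
    (ha : ∀ b, d.a b = d₂.a b) (Y : Finset P.g'.I) (z : G.V → ℂ) (hz : z ∈ strip h0 P.g' Y) :
    Kprime P r R (conv Γ) K d Y z = Kprime P r R (conv Γ) K₂ d₂ Y z := by
  refine (clsEq h0 P.g').kprime r R (fun _ => conv Γ) (fun t => if t then K else K₂) (fun t => if t then d else d₂)
    (fun V z hz => ?_) hF (fun b => ?_) Y z hz
  · refine conv_congr_strip (h := h0) (g := P.g) (X := V) Γ (fun w hw => ?_) (strip_coarse _ P (Finset.Subset.refl _) hz)
    simp only [if_true, Bool.false_eq_true, if_false, Finset.prod_apply]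
    exact Finset.prod_congr rfl fun X hX => hK X w (strip_anti _ P.g (Alg.comps_subset hX) hw)
  · show (1 + d.a b)⁻¹ - 1 = (1 + d₂.a b)⁻¹ - 1
    rw [ha b]

theorem Klin_congr (h0 : ℝ≥0) (R : ℕ) (K K₂ : Act P.g) (d d₂ : Desig P.g' (Fn G))
    (hK : ∀ X, ∀ z ∈ strip h0 P.g X, K X z = K₂ X z) (hF : ∀ Y b, ∀ z ∈ strip h0 P.g' {b}, d.F Y b z = d₂.F Y b z)
    (ha : ∀ b, d.a b = d₂.a b) (Y : Finset P.g'.I) (z : G.V → ℂ) (hz : z ∈ strip h0 P.g' Y) :
    Klin P R (conv Γ) K d Y z = Klin P R (conv Γ) K₂ d₂ Y z := by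
  refine (clsEq h0 P.g').klin R (fun _ => conv Γ) (fun t => if t then K else K₂) (fun t => if t then d else d₂)
    (fun X _ z hz => ?_) hF (fun b => ha b) Y z hz
  exact conv_congr_strip (h := h0) (g := P.g) (X := X) Γ (fun w hw => hK X w hw) (strip_coarse _ P (Finset.Subset.refl _) hz)

/-! ## holomorphy in a parameter -/

section param

variable {E : Type} [NormedAddCommGroup E] [NormedSpace ℂ E] [FiniteDimensional ℂ E] (U : Set E) (hU : IsOpen U)
include hU

/-- **Gateaux holomorphy of the RG map** -/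
theorem Kprime_hol (p : Par) (r R n0 : ℕ) (cst : ℝ≥0) (hR : max 5 Vf.sep ≤ R) (hreg : RegStable R n0 cst p.δ p.κ P Vf Vc Γ)
    (K : E → Act P.g) (d : E → Desig P.g' (Fn G)) (hK : ∀ s ∈ U, ∀ X, Hol p.h0 P.g X (K s X))
    (M : Finset P.g.I → ℝ≥0∞) (hM : ∀ X, M X ≠ ⊤) (hbd : ∀ s ∈ U, ∀ X, fnSize p P.g Vf X (K s X) ≤ M X)
    (hKs : ∀ X, ∀ z ∈ strip p.h0 P.g X, DifferentiableOn ℂ (fun s => K s X z) U)
    (hFs : ∀ Y b, ∀ z ∈ strip p.h0 P.g' {b}, DifferentiableOn ℂ (fun s => (d s).F Y b z) U)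
    (has : ∀ b, DifferentiableOn ℂ (fun s => (d s).a b) U) (hne : ∀ s ∈ U, ∀ b, 1 + (d s).a b ≠ 0)
    (Y : Finset P.g'.I) (z : G.V → ℂ) (hz : z ∈ strip p.h0 P.g' Y) :
    DifferentiableOn ℂ (fun s => Kprime P r R (conv Γ) (K s) (d s) Y z) U := by
  refine (clsDiff U p.h0 P.g').kprime r R (fun _ => conv Γ) K d (fun V z hz => ?_) hFs (fun b => ?_) Y z hz
  · refine conv_hol_param U hU p P.g Vf V Γ (fun s => ∏ X ∈ P.g.comps R V, K s X) (fun s hs => hol_prod_comps (hK s hs) V)
      (∏ X ∈ P.g.comps R V, M X) (ENNReal.prod_ne_top fun X _ => hM X) (fun s hs => ?_)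
      (lintegral_Wt_ne_top ENNReal.coe_ne_top hreg V) (fun w hw => ?_) (strip_coarse _ P (Finset.Subset.refl _) hz)
    · exact (fnSize_prod_comps_le p P.g P.ok Vf hR V (K s)).trans (Finset.prod_le_prod' fun X _ => hbd s hs X)
    · simp only [Finset.prod_apply]
      exact differentiableOn_fun_prod _ _ _ fun X hX => hKs X w (strip_anti _ P.g (Alg.comps_subset hX) hw)
  · exact (((differentiableOn_const 1).add (has b)).inv fun s hs => hne s hs b).sub (differentiableOn_const 1)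

theorem Klin_hol (p : Par) (R n0 : ℕ) (cst : ℝ≥0) (hreg : RegStable R n0 cst p.δ p.κ P Vf Vc Γ)
    (K : E → Act P.g) (d : E → Desig P.g' (Fn G)) (hK : ∀ s ∈ U, ∀ X, Hol p.h0 P.g X (K s X))
    (M : Finset P.g.I → ℝ≥0∞) (hM : ∀ X, M X ≠ ⊤) (hbd : ∀ s ∈ U, ∀ X, fnSize p P.g Vf X (K s X) ≤ M X)
    (hKs : ∀ X, ∀ z ∈ strip p.h0 P.g X, DifferentiableOn ℂ (fun s => K s X z) U)
    (hFs : ∀ Y b, ∀ z ∈ strip p.h0 P.g' {b}, DifferentiableOn ℂ (fun s => (d s).F Y b z) U)
    (has : ∀ b, DifferentiableOn ℂ (fun s => (d s).a b) U)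
    (Y : Finset P.g'.I) (z : G.V → ℂ) (hz : z ∈ strip p.h0 P.g' Y) :
    DifferentiableOn ℂ (fun s => Klin P R (conv Γ) (K s) (d s) Y z) U := by
  refine (clsDiff U p.h0 P.g').klin R (fun _ => conv Γ) K d (fun X _ z hz => ?_) hFs has Y z hz
  exact conv_hol_param U hU p P.g Vf X Γ (fun s => K s X) (fun s hs => hK s hs X) (M X) (hM X) (fun s hs => hbd s hs X)
    (lintegral_Wt_ne_top ENNReal.coe_ne_top hreg X) (hKs X) (strip_coarse _ P (Finset.Subset.refl _) hz)

end param

end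

end Claimed.Agent.R285.Scal
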