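import Claimed.Agent.R285.Scal.Basic

/-!
# ROW 285, package PK-SCAL, file 2: the sizes of the scalar representation form a `SizeSys`     (helper218)

`scalarSizes` = `B4.scalarSizes` WITH THE NEW HYPOTHESIS `hR : max 5 Vf.sep ≤ R` (the regulators of the `R`-components of a fine set must multiply:
`integ` is not provable without it).
-/

set_option autoImplicit false

namespace Claimed.Agent.R285.Scal

open scoped BigOperators ENNReal NNReal
open MeasureTheory ProbabilityTheory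
open Claimed.Agent.R285.RG Claimed.Agent.R285

noncomputable section

variable {G : Geom} {D0 ℓ : ℕ} (P : Pair G D0 ℓ) (Γ : Matrix G.V G.V ℝ) (Vf : Extra P.g) (Vc : Extra P.g')

theorem card_eq_sum_comps {g : Grid G} (R : ℕ) (V : Finset g.I) : V.card = ∑ X ∈ g.comps R V, X.card := by
  conv_lhs => rw [← Alg.comps_biUnion (R := R) V]
  exact Finset.card_biUnion fun X hX Y hY hne => Alg.comps_disjoint hX hY hne

variable {P Γ Vf Vc}

/-- the cost per block cannot vanish -/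
theorem cst_pow_ne_zero {p : Par} {R n0 : ℕ} {cst : ℝ≥0∞} (hδ : 0 ≤ p.δ) (hκ : 0 ≤ p.κ)
    (hreg : RegStable R n0 cst p.δ p.κ P Vf Vc Γ) (V : Finset P.g.I) : cst ^ V.card ≠ 0 := by
  intro h0
  have h := hreg.main V (P.N.cl V) (Finset.Subset.refl _) 0
  rw [h0, zero_mul, nonpos_iff_eq_zero] at h
  have h1 : (1 : ℝ≥0∞) ≤ ∫⁻ ζ, ENNReal.ofReal (Wt P.g p.δ p.κ Vf V (0 + ζ)) ∂(gauss G Γ) := by
    calc (1 : ℝ≥0∞) = ∫⁻ _, 1 ∂(gauss G Γ) := by simp
      _ ≤ _ := lintegral_mono fun ζ => by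
          simpa using one_le_Wt P.g hδ hκ Vf V (0 + ζ)
  rw [h] at h1
  exact absurd h1 (by simp)

/-- integrability of the fine regulator -/
theorem lintegral_Wt_ne_top {p : Par} {R n0 : ℕ} {cst : ℝ≥0∞} (hcst : cst ≠ ⊤)
    (hreg : RegStable R n0 cst p.δ p.κ P Vf Vc Γ) (V : Finset P.g.I) (φ : G.V → ℝ) :
    ∫⁻ ζ, ENNReal.ofReal (Wt P.g p.δ p.κ Vf V (φ + ζ)) ∂(gauss G Γ) ≠ ⊤ :=
  ne_top_of_le_ne_top (ENNReal.mul_ne_top (ENNReal.pow_ne_top hcst) ENNReal.ofReal_ne_top)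
    (hreg.main V (P.N.cl V) (Finset.Subset.refl _) φ)

/-- **product inequality + regulator stability** -/
theorem fnSize_integ (p : Par) (R n0 : ℕ) (cst : ℝ≥0∞) (hδ : 0 ≤ p.δ) (hκ : 0 ≤ p.κ)
    (hreg : RegStable R n0 cst p.δ p.κ P Vf Vc Γ) (hR : max 5 Vf.sep ≤ R)
    (V : Finset P.g.I) (K : Act P.g) (Y : Finset P.g'.I) (hY : P.N.cl V ⊆ Y) :
    fnSize p P.g' Vc Y (conv Γ (∏ X ∈ P.g.comps R V, K X))
      ≤ ∏ X ∈ P.g.comps R V, (cst ^ X.card * fnSize p P.g Vf X (K X)) := by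
  set c : ℝ≥0∞ := ∏ X ∈ P.g.comps R V, fnSize p P.g Vf X (K X) with hc
  have hrhs : ∏ X ∈ P.g.comps R V, (cst ^ X.card * fnSize p P.g Vf X (K X)) = cst ^ V.card * c := by
    rw [Finset.prod_mul_distrib, Finset.prod_pow_eq_pow_sum, ← card_eq_sum_comps]
  rw [hrhs]
  rcases eq_or_ne c ⊤ with htop | htop
  · rw [htop, ENNReal.mul_top (cst_pow_ne_zero hδ hκ hreg V)]
    exact le_top
  unfold fnSize
  refine iSup_le fun φ => ?_
  rw [ENNReal.div_le_iff (ofReal_Wt_ne_zero _ _ _ _ _ _) ENNReal.ofReal_ne_top]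
  calc ptNorm p.h0 P.g' Y (conv Γ (∏ X ∈ P.g.comps R V, K X)) φ
      ≤ ptNorm p.h0 P.g V (conv Γ (∏ X ∈ P.g.comps R V, K X)) φ := Hol.ptNorm_coarse P p.h0 V Y hY _ φ
    _ ≤ ∫⁻ ζ, ptNorm p.h0 P.g V (∏ X ∈ P.g.comps R V, K X) (φ + ζ) ∂(gauss G Γ) := Hol.ptNorm_conv _ _ _ _ _ _
    _ ≤ ∫⁻ ζ, c * ENNReal.ofReal (Wt P.g p.δ p.κ Vf V (φ + ζ)) ∂(gauss G Γ) := lintegral_mono fun ζ =>
        (Hol.ptNorm_le_fnSize_mul p P.g Vf V _ (φ + ζ)).trans
          (mul_le_mul' (fnSize_prod_comps_le p P.g P.ok Vf hR V K) le_rfl)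
    _ = c * ∫⁻ ζ, ENNReal.ofReal (Wt P.g p.δ p.κ Vf V (φ + ζ)) ∂(gauss G Γ) := lintegral_const_mul' _ _ htop
    _ ≤ c * (cst ^ V.card * ENNReal.ofReal (Wt P.g' p.δ p.κ Vc Y φ)) := mul_le_mul' le_rfl (hreg.main V Y hY φ)
    _ = _ := by ring

variable (P Γ Vf Vc)

/-- the sizes of the scalar representation form a `SizeSys` (product inequality, L4.4 / L9.2, monotonicity) -/
def scalarSizes (p : Par) (R n0 : ℕ) (cst : ℝ≥0∞) (hreg : RegStable R n0 cst p.δ p.κ P Vf Vc Γ)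
    (hp : p.Adm P.g') (hR : max 5 Vf.sep ≤ R) : SizeSys P R (conv Γ) where
  szf := fun X F => fnSize p P.g Vf X F
  szc := fun Y F => fnSize p P.g' Vc Y F
  sep := max 5 Vc.sep
  cst := cst
  szc_zero := fun Y => fnSize_zero p P.g' Vc Y
  szc_add := fun Y x y => fnSize_add_le p P.g' Vc Y x y
  szc_smul := fun Y c x => fnSize_smul_le p P.g' Vc Y c x
  szc_one := fun Y => fnSize_one_le p P.g' hp.δ_pos.le hp.κ_pos.le Vc Y
  szc_mono := fun _ _ x h => fnSize_anti p P.g' hp Vc h x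
  szc_mul := fun _ _ x y h => fnSize_mul_le p P.g' P.ok' Vc h x y
  integ := fun V K Y hY => fnSize_integ p R n0 cst hp.δ_pos.le hp.κ_pos.le hreg hR V K Y hY

end

end Claimed.Agent.R285.Scal
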